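import Vale.Agent.P287D.Sf.Df

/-!
# P287D: surfaces, the intersection pairing
-/

set_option linter.unusedVariables false
set_option linter.unusedSectionVars false

open Set Function

noncomputable section

namespace Vale.Agent.P287D.Sf

variable {L : Type} [Field L] [Algebra ℂ L] {Z Z' β γ γ' N a b G Λ : BD L} {P Q : Pl L} {c : ℝ}

theorem I2_eq (Z γ : BD L) : I2 Z γ = ∑ᶠ P, Z P * dg γ P := by
  have e : ∀ P : Pl L, (fun i : Fin 1 => res P (![Z, γ] i.succ)) = ![res P γ] := fun P => by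
    funext i
    fin_cases i
    rfl
  change ∑ᶠ P : Pl L, Z P * I 1 P.κ (fun i : Fin 1 => res P (![Z, γ] i.succ)) = _
  simp only [e]
  rfl

theorem on_iff : On 1 Λ P ↔ 0 < dg Λ P := by
  have e : (fun _ : Fin 1 => res P Λ) = ![res P Λ] := by
    funext i
    fin_cases i
    rfl
  unfold On vol dg
  rw [e]

theorem I2_δ (P : Pl L) (γ : BD L) : I2 P.δ γ = dg γ P := by
  rw [I2_eq, finsum_eq_single _ P fun Q h => by rw [Pl.δ_ne h, zero_mul], Pl.δ_self, one_mul]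

theorem I2_congr (h : ∀ P, dg γ P ≠ 0 → Z P = Z' P) : I2 Z γ = I2 Z' γ := by
  rw [I2_eq, I2_eq]
  refine finsum_congr fun P => ?_
  by_cases k : dg γ P = 0
  · simp [k]
  · rw [h P k]

theorem I2_zero (h : ∀ P, Z P ≠ 0 → dg γ P = 0) : I2 Z γ = 0 := by
  rw [I2_eq]
  refine finsum_eq_zero_of_forall_eq_zero fun P => ?_
  by_cases k : Z P = 0
  · simp [k]
  · simp [h P k]

theorem I2_nonneg' (h : ∀ P, 0 ≤ Z P * dg γ P) : 0 ≤ I2 Z γ := I2_eq Z γ ▸ finsum_nonneg h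

theorem Nn.I2_nonneg (hγ : Nn γ) (h : ∀ P, 0 < dg γ P → 0 ≤ Z P) : 0 ≤ I2 Z γ :=
  I2_nonneg' fun P => by
    rcases (hγ.nn P).eq_or_lt with k | k
    · rw [← k, mul_zero]
    · exact mul_nonneg (h P k) k.le

theorem Nn.zero_of (hγ : Nn γ) (h : ¬ 0 < dg γ P) : dg γ P = 0 :=
  le_antisymm (not_lt.1 h) (hγ.nn P)

theorem Nn.pos_of (hγ : Nn γ) (h : dg γ P ≠ 0) : 0 < dg γ P := (hγ.nn P).lt_of_ne' h

theorem Det.refl (N : BD L) : Det N N := fun _ h => h

theorem Det.trans (h : Det a b) (h' : Det b γ) : Det a γ := fun P k => h' P (h P k)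

theorem Det.pos (h : Det N γ) (hN : Nn N) (k : dg γ P ≠ 0) : 0 < dg N P :=
  hN.pos_of fun e => k (h P e)

section isb

variable {n : ℕ}

theorem isB_of (h : IsB n Z) (e : ∀ P, Z' P ≠ 0 → Z P ≠ 0) : IsB n Z' := fun s hs =>
  (h s hs).subset fun P k => ⟨k.1, e P k.2⟩

theorem isB_add (h : IsB n Z) (h' : IsB n Z') : IsB n (Z + Z') := fun s hs =>
  ((h s hs).union (h' s hs)).subset fun P k => by
    by_cases e : Z P = 0
    · exact Or.inr ⟨k.1, fun e' => k.2 (by simp [e, e'])⟩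
    · exact Or.inl ⟨k.1, e⟩

theorem isB_smul (c : ℝ) (h : IsB n Z) : IsB n (c • Z) :=
  isB_of h fun _ k => right_ne_zero_of_mul k

theorem isB_neg (h : IsB n Z) : IsB n (-Z) := isB_of h fun _ k => neg_ne_zero.1 k

theorem isB_sub (h : IsB n Z) (h' : IsB n Z') : IsB n (Z - Z') :=
  sub_eq_add_neg Z Z' ▸ isB_add h (isB_neg h')

theorem isB_δ (P : Pl L) : IsB n P.δ := fun _ _ =>
  (finite_singleton P).subset fun _ k => by_contra fun e => k.2 (Pl.δ_ne e)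

end isb

namespace Rows

variable (R : Rows L)
include R

theorem zero (P : Pl L) : dg (0 : BD L) P = 0 := R.prn 0 (zero_mem _) P

theorem neg (h : β ∈ Car L) (P : Pl L) : dg (-β) P = -dg β P := by
  simpa using R.smul (-1) β h P

theorem sub (h : β ∈ Car L) (h' : γ ∈ Car L) (P : Pl L) : dg (β - γ) P = dg β P - dg γ P := by
  rw [sub_eq_add_neg, R.add β h _ (neg_mem h'), R.neg h', sub_eq_add_neg]

theorem add_smul (h : β ∈ Car L) (h' : γ ∈ Car L) (c : ℝ) (P : Pl L) :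
    dg (β + c • γ) P = dg β P + c * dg γ P := by
  rw [R.add β h _ (Submodule.smul_mem _ c h'), R.smul c γ h']

theorem sum {ι : Type*} (T : Finset ι) {f : ι → BD L} (h : ∀ i ∈ T, f i ∈ Car L) (P : Pl L) :
    dg (∑ i ∈ T, f i) P = ∑ i ∈ T, dg (f i) P := by
  classical
  induction T using Finset.induction_on with
  | empty => simpa using R.zero P
  | insert i T hi ih =>
    rw [Finset.sum_insert hi, Finset.sum_insert hi, R.add _ (h i (by simp)) _
      (sum_mem fun j hj => h j (by simp [hj])), ih fun j hj => h j (by simp [hj])]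

theorem congr (h : β ∈ Car L) (e : γ - β ∈ Prn L) (P : Pl L) : dg γ P = dg β P := by
  have := R.add β h _ (Prn_le_Car e) P
  rwa [add_sub_cancel, R.prn _ e, add_zero] at this

theorem fin (h : IsB 1 Z) (hγ : γ ∈ Car L) : (support fun P => Z P * dg γ P).Finite := by
  obtain ⟨m, -, -, k⟩ := R.ex ∅ {γ} finite_empty (finite_singleton γ) (by simpa using hγ)
  exact (m.fin Z h).subset fun P e => ⟨(k γ rfl).pos m.nn (right_ne_zero_of_mul e),
    left_ne_zero_of_mul e⟩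

theorem add_l (h : IsB 1 Z) (h' : IsB 1 Z') (hγ : γ ∈ Car L) :
    I2 (Z + Z') γ = I2 Z γ + I2 Z' γ := by
  rw [I2_eq, I2_eq, I2_eq, ← finsum_add_distrib (R.fin h hγ) (R.fin h' hγ)]
  exact finsum_congr fun P => by simp [add_mul]

theorem smul_l (c : ℝ) (h : IsB 1 Z) (hγ : γ ∈ Car L) : I2 (c • Z) γ = c * I2 Z γ := by
  rw [I2_eq, I2_eq, mul_finsum]
  exact finsum_congr fun P => by simp [mul_assoc]

theorem neg_l (h : IsB 1 Z) (hγ : γ ∈ Car L) : I2 (-Z) γ = -I2 Z γ := by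
  simpa using R.smul_l (-1) h hγ

theorem sub_l (h : IsB 1 Z) (h' : IsB 1 Z') (hγ : γ ∈ Car L) :
    I2 (Z - Z') γ = I2 Z γ - I2 Z' γ := by
  rw [sub_eq_add_neg, R.add_l h (isB_neg h') hγ, R.neg_l h' hγ, sub_eq_add_neg]

theorem add_r (h : IsB 1 Z) (hγ : γ ∈ Car L) (hγ' : γ' ∈ Car L) :
    I2 Z (γ + γ') = I2 Z γ + I2 Z γ' := by
  rw [I2_eq, I2_eq, I2_eq, ← finsum_add_distrib (R.fin h hγ) (R.fin h hγ')]
  exact finsum_congr fun P => by rw [R.add γ hγ γ' hγ', mul_add]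

theorem smul_r (c : ℝ) (h : IsB 1 Z) (hγ : γ ∈ Car L) : I2 Z (c • γ) = c * I2 Z γ := by
  rw [I2_eq, I2_eq, mul_finsum]
  exact finsum_congr fun P => by rw [R.smul c γ hγ, mul_left_comm]

theorem neg_r (h : IsB 1 Z) (hγ : γ ∈ Car L) : I2 Z (-γ) = -I2 Z γ := by
  simpa using R.smul_r (-1) h hγ

theorem sub_r (h : IsB 1 Z) (hγ : γ ∈ Car L) (hγ' : γ' ∈ Car L) :
    I2 Z (γ - γ') = I2 Z γ - I2 Z γ' := by
  rw [sub_eq_add_neg, R.add_r h hγ (neg_mem hγ'), R.neg_r h hγ', sub_eq_add_neg]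

theorem prn_r (Z : BD L) (h : γ ∈ Prn L) : I2 Z γ = 0 := I2_zero fun P _ => R.prn γ h P

theorem prn_l (h : Z ∈ Prn L) (hγ : γ ∈ Car L) : I2 Z γ = 0 := by
  rw [R.symm Z (Prn_le_Car h) γ hγ, R.prn_r γ h]

theorem isB_congr (h : IsB 1 Z) (e : Z' - Z ∈ Prn L) : IsB 1 Z' := by
  simpa using isB_add h (R.isb _ (Prn_le_Car e))

theorem congr_l (h : IsB 1 Z) (e : Z' - Z ∈ Prn L) (hγ : γ ∈ Car L) : I2 Z' γ = I2 Z γ := by
  have := R.add_l h (R.isb _ (Prn_le_Car e)) hγ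
  rwa [add_sub_cancel, R.prn_l e hγ, add_zero] at this

theorem le_I2 (h : IsB 1 Z) (hγ : γ ∈ Car L) (k : ∀ P, 0 ≤ Z P * dg γ P) (P : Pl L) :
    Z P * dg γ P ≤ I2 Z γ := I2_eq Z γ ▸ single_le_finsum P (R.fin h hγ) k

theorem mono_l (h : IsB 1 Z) (h' : IsB 1 Z') (hγ : Nn γ) (k : ∀ P, 0 < dg γ P → Z P ≤ Z' P) :
    I2 Z γ ≤ I2 Z' γ := by
  have := hγ.I2_nonneg (Z := Z' - Z) fun P e => sub_nonneg.2 (k P e)
  rwa [R.sub_l h' h hγ.car, sub_nonneg] at this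

theorem nn_smp (h : Smp β) : Nn β := ⟨h.car, fun P => by
  obtain ⟨G, a, b⟩ := h.exists_rep (finite_singleton P)
  rw [← R.congr h.car a.prn]
  exact R.eff G (a.car h.car) a.nonneg P (b P rfl)⟩

theorem nn_nef (h : Nef β) : Nn β := ⟨h.car, fun P => by
  obtain ⟨s, hs⟩ := id h
  have k := (R.nn_smp (smp_mx s)).nn P
  refine le_of_forall_pos_le_add fun ε hε => ?_
  have := (R.nn_smp (hs (ε / (dg (mx s) P + 1)) (by positivity))).nn P
  rw [R.add_smul h.car (mx_mem_Car s)] at this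
  have e : ε / (dg (mx s) P + 1) * dg (mx s) P ≤ ε := by
    rw [div_mul_eq_mul_div, div_le_iff₀ (by positivity)]
    nlinarith
  linarith⟩

theorem nn_add (h : Nn β) (h' : Nn γ) : Nn (β + γ) := ⟨add_mem h.car h'.car, fun P => by
  rw [R.add β h.car γ h'.car]
  exact add_nonneg (h.nn P) (h'.nn P)⟩

theorem det_dsc (h : Dsc Λ β) (hΛ : Λ ∈ Car L) : β ∈ Car L ∧ Det Λ β := by
  obtain ⟨ε, hε, a, b⟩ := h
  have k : β ∈ Car L := by
    have := Submodule.smul_mem _ ε⁻¹ (sub_mem a.car hΛ)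
    rwa [add_sub_cancel_left, inv_smul_smul₀ hε.ne'] at this
  refine ⟨k, fun P e => ?_⟩
  have a' := (R.nn_smp a).nn P
  have b' := (R.nn_smp b).nn P
  rw [R.add_smul hΛ k, e] at a'
  rw [R.sub hΛ (Submodule.smul_mem _ ε k), R.smul ε β k, e] at b'
  exact (mul_eq_zero.1 (by linarith : ε * dg β P = 0)).resolve_left hε.ne'

theorem det_add (h : Det N β) (h' : Det N γ) (hβ : β ∈ Car L) (hγ : γ ∈ Car L) :
    Det N (β + γ) := fun P e => by rw [R.add β hβ γ hγ, h P e, h' P e, add_zero]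

theorem det_smul (c : ℝ) (h : Det N β) (hβ : β ∈ Car L) : Det N (c • β) := fun P e => by
  rw [R.smul c β hβ, h P e, mul_zero]

theorem det_sub (h : Det N β) (h' : Det N γ) (hβ : β ∈ Car L) (hγ : γ ∈ Car L) :
    Det N (β - γ) := fun P e => by rw [R.sub hβ hγ, h P e, h' P e, sub_zero]

/-- an effective class meets a numerically nef class non-negatively -/
theorem eff_nn (h : Eff Z) (hZ : IsB 1 Z) (hγ : Nn γ) : 0 ≤ I2 Z γ := by
  obtain ⟨G, a⟩ := h
  rw [← R.congr_l hZ a.prn hγ.car]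
  exact hγ.I2_nonneg fun P _ => a.nonneg P

theorem psm_nn (h : PsM N Z) (hZ : IsB 1 Z) (hN : Nn N) (hγ : Nn γ) (hd : Det N γ) :
    0 ≤ I2 Z γ := by
  obtain ⟨s, hs⟩ := h
  have k := R.eff_nn (eff_mx s) (R.isb _ (mx_mem_Car s)) hγ
  have hs' := R.isb _ (mx_mem_Car s)
  refine le_of_forall_pos_le_add fun ε hε => ?_
  obtain ⟨G, a, b⟩ := hs (ε / (I2 (mx s) γ + 1)) (by positivity)
  have := hγ.I2_nonneg (Z := G) fun P e => b P (hd.pos hN e.ne')
  rw [R.congr_l (isB_add hZ (isB_smul _ hs')) a hγ.car, R.add_l hZ (isB_smul _ hs') hγ.car,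
    R.smul_l _ hs' hγ.car] at this
  have e : ε / (I2 (mx s) γ + 1) * I2 (mx s) γ ≤ ε := by
    rw [div_mul_eq_mul_div, div_le_iff₀ (by positivity)]
    nlinarith
  linarith

omit R in
theorem _root_.Vale.Agent.P287D.Psef.psM (h : Psef Z) (N : BD L) : PsM N Z :=
  let ⟨s, hs⟩ := h
  ⟨s, fun ε hε => let ⟨G, a⟩ := hs ε hε; ⟨G, a.prn, fun P _ => a.nonneg P⟩⟩

theorem psef_nn (h : Psef Z) (hZ : IsB 1 Z) (hγ : Nn γ) : 0 ≤ I2 Z γ :=
  R.psm_nn (h.psM γ) hZ hγ hγ (.refl γ)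

/-- the equality case of the Hodge index theorem -/
theorem hi0 (ha : a ∈ Car L) (hb : b ∈ Car L) (h : 0 < I2 a a) (h0 : I2 a b = 0)
    (e : 0 ≤ I2 b b) (hγ : γ ∈ Car L) : I2 b γ = 0 := by
  have ia := R.isb a ha
  have ib := R.isb b hb
  have e0 : I2 b b = 0 := le_antisymm (R.hi a ha b hb h h0) e
  obtain ⟨g, hg, g1, g2⟩ : ∃ g ∈ Car L, I2 a g = 0 ∧ I2 b g = I2 b γ := by
    refine ⟨γ - (I2 a γ / I2 a a) • a, sub_mem hγ (Submodule.smul_mem _ _ ha), ?_, ?_⟩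
    · rw [R.sub_r ia hγ (Submodule.smul_mem _ _ ha), R.smul_r _ ia ha, div_mul_cancel₀ _ h.ne',
        sub_self]
    · rw [R.sub_r ib hγ (Submodule.smul_mem _ _ ha), R.smul_r _ ib ha, R.symm b hb a ha, h0,
        mul_zero, sub_zero]
  rw [← g2]
  have ig := R.isb g hg
  have k : ∀ t : ℝ, 2 * t * I2 b g + I2 g g ≤ 0 := fun t => by
    have hs := Submodule.smul_mem _ t hb
    have := R.hi a ha (g + t • b) (add_mem hg hs) h
      (by rw [R.add_r ia hg hs, R.smul_r t ia hb, g1, h0, mul_zero, add_zero])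
    rw [R.add_l ig (isB_smul t ib) (add_mem hg hs), R.smul_l t ib (add_mem hg hs),
      R.add_r ig hg hs, R.add_r ib hg hs, R.smul_r t ig hb, R.smul_r t ib hb, e0,
      R.symm g hg b hb] at this
    linarith
  by_contra ne
  have := k ((1 - I2 g g) / (2 * I2 b g))
  have e2 : 2 * ((1 - I2 g g) / (2 * I2 b g)) * I2 b g = 1 - I2 g g := by field_simp
  linarith

/-- the Cauchy-Schwarz inequality on the orthogonal of a class of positive square -/
theorem cs (ha : a ∈ Car L) (hb : b ∈ Car L) (hγ : γ ∈ Car L) (h : 0 < I2 a a) (h0 : I2 a b = 0)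
    (h1 : I2 a γ = 0) : I2 b γ ^ 2 ≤ I2 b b * I2 γ γ := by
  have ia := R.isb a ha
  have ib := R.isb b hb
  have ig := R.isb γ hγ
  have k : ∀ t : ℝ, 0 ≤ -I2 b b * (t * t) + -(2 * I2 b γ) * t + -I2 γ γ := fun t => by
    have hs := Submodule.smul_mem _ t hb
    have := R.hi a ha (γ + t • b) (add_mem hγ hs) h
      (by rw [R.add_r ia hγ hs, R.smul_r t ia hb, h1, h0, mul_zero, add_zero])
    rw [R.add_l ig (isB_smul t ib) (add_mem hγ hs), R.smul_l t ib (add_mem hγ hs),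
      R.add_r ig hγ hs, R.add_r ib hγ hs, R.smul_r t ig hb, R.smul_r t ib hb,
      R.symm γ hγ b hb] at this
    linarith
  have := discrim_le_zero k
  rw [discrim] at this
  nlinarith

/-- the Hodge index inequality -/
theorem hodge (ha : a ∈ Car L) (hb : b ∈ Car L) (h : 0 < I2 a a) :
    I2 a a * I2 b b ≤ I2 a b ^ 2 := by
  have ia := R.isb a ha
  have ib := R.isb b hb
  have h1 := Submodule.smul_mem _ (I2 a a) hb
  have h2 := Submodule.smul_mem _ (I2 a b) ha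
  have := R.hi a ha _ (sub_mem h1 h2) h
    (by rw [R.sub_r ia h1 h2, R.smul_r _ ia hb, R.smul_r _ ia ha, mul_comm, sub_self])
  rw [R.sub_l (R.isb _ h1) (R.isb _ h2) (sub_mem h1 h2), R.smul_l _ ib (sub_mem h1 h2),
    R.smul_l _ ia (sub_mem h1 h2), R.sub_r ib h1 h2, R.sub_r ia h1 h2, R.smul_r _ ib hb,
    R.smul_r _ ib ha, R.smul_r _ ia hb, R.smul_r _ ia ha, R.symm b hb a ha] at this
  nlinarith

end Rows

end Vale.Agent.P287D.Sf
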