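import Vale.Agent.P287D.Sr.Up
import Vale.Agent.P287D.Ba.Hy
import Vale.Agent.P287D.In.Int
import Vale.Agent.P287D.In.Vol
import Vale.Agent.P287D.Pr.Neg
import Vale.Agent.P287D.Va.Dsc
import Vale.Agent.P287D.Sf.Bas

/-!
# P287D: surfaces, the rows hold
-/

open Set

noncomputable section

namespace Vale.Agent.P287D.Sf

variable {L : Type} [Field L] [Algebra ℂ L]

theorem dg_eq_cf (γ : BD L) (P : Pl L) : dg γ P = In.cf P ![γ] := by
  rw [← I2_δ, ← In.I_δ]
  rfl

theorem car_one {p : BD L → Prop} {γ : BD L} (h : p γ) (i : Fin 1) : p (![γ] i) := by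
  fin_cases i
  exact h

theorem upd_one (β γ : BD L) : Function.update ![β] 0 γ = ![γ] := by
  funext i
  fin_cases i
  rfl

theorem det_of_dsc (hL : FF L 2) {Λ β : BD L} (h : Smp Λ) (d : Dsc Λ β) : Det Λ β := fun P e => by
  rw [dg_eq_cf]
  exact In.hy.exc hL (fun k => (on_iff.1 k).ne' e) h (car_one d)

/-- **the rows of the surface toolbox** -/
theorem rows (hL : FF L 2) : Rows L where
  add β a γ b P := by
    simpa only [upd_one, ← dg_eq_cf] using (In.hy.cf_ml hL P).add ![β] 0 β γ (car_one a) a b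
  smul c β a P := by
    simpa only [upd_one, ← dg_eq_cf] using (In.hy.cf_ml hL P).smul ![β] 0 c β (car_one a) a
  prn β a P := (dg_eq_cf β P).trans (In.hy.cf_prn hL P 0 a)
  eff β a b P c := finsum_nonneg fun Q => mul_nonneg (res_nonneg hL P a b c Q) zero_le_one
  int β a P := dg_eq_cf β P ▸ In.hy.cf_int hL P (car_one a)
  isb := (Ba.mod.isb 1 L hL).1
  cnb := (Ba.mod.isb 1 L hL).2.1
  cnz := (Ba.mod.isb 1 L hL).2.2
  symm β a γ b := In.hy.swap (c := ![]) hL a b fun i => i.elim0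
  hi a ha b hb h e := by
    have := (Ba.Vl.volA.hodge L hL a ha b hb h).1
    rw [e] at this
    by_contra k
    linarith [mul_pos h (not_le.1 k)]
  ex T B hT hB hc := by
    classical
    obtain ⟨s, Γ, t, z, a, b, e, f⟩ := Sr.genM L hL T B hT hB hc
    choose c c1 c2 c3 using f
    have o : ∀ {P}, dg (mx s) P = 0 → ¬ On 1 (mx s) P := fun e k => (on_iff.1 k).ne' e
    refine ⟨{
      A := mx s
      c P := if h : On 1 (mx s) P then c P h else 0
      k := Γ
      nn := ⟨mx_mem_Car s, fun P => dg_eq_cf _ P ▸ In.hy.cf_nef hL P (car_one (nef_mx s))⟩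
      pos := ?_
      fin Z h := (h s t.big).subset fun P k => ⟨on_iff.2 k.1, k.2⟩
      cZ P k := dif_pos (on_iff.2 k) ▸ c1 P _
      c0 P k := dif_pos (on_iff.2 k) ▸ Pr.hart res' hL t.smp t.big (c2 P _).1 fun Q l =>
        ((c2 P _).2 Q l).ge.trans' (P.δ_nonneg Q)
      cδ P Q k l := dif_pos (on_iff.2 k) ▸ (c2 P _).2 Q (on_iff.2 l)
      cd P k := dif_pos (on_iff.2 k) ▸ det_of_dsc hL t.smp (c2 P _).1
      kZ := z
      ko P k := t.hull.2 P (on_iff.2 k)
      ke P k := by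
        have := e P (o k)
        rw [dsc, Pi.sub_apply] at this
        linarith
      kd := det_of_dsc hL t.smp t.hull.1
      gen P k := by
        rw [dif_pos (on_iff.2 k), ← I2_δ, ← I2_δ P Γ]
        exact c3 P _ }, ⟨s, rfl, t.big⟩, fun P k => on_iff.1 (a P k),
      fun β k => det_of_dsc hL t.smp (b β k)⟩
    exact In.hy.pos hL (Fin.forall_fin_two.2 ⟨⟨nef_mx s, t.big⟩, nef_mx s, t.big⟩)

theorem _root_.Vale.Agent.P287D.IsS.rows {d : ℕ} {H : BD L} {f : L} (h : IsS d L H f) : Rows L :=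
  Sf.rows h.ff

end Vale.Agent.P287D.Sf
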