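import Vale.Agent.P287D.Sf.Ctr

/-!
# P287D: surfaces, negativity and the Mumford pull back
-/

set_option linter.unusedVariables false
set_option linter.unusedSectionVars false

open Set Function

noncomputable section

namespace Vale.Agent.P287D.Sf

variable {L : Type} [Field L] [Algebra ℂ L] {Z Z' β γ γ' N a b G Λ B : BD L} {P Q E : Pl L} {c : ℝ}

namespace Nm

variable (m : Nm L) (R : Rows L)
include R

/-- the negativity lemma on a model -/
theorem negat (hN : Nn N) (pos : 0 < I2 N N) (hd : Det m.A N) (hβ : β ∈ Car L) (hβd : Det m.A β)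
    (h1 : ∀ P, 0 < dg N P → 0 ≤ β P) (h2 : ∀ P ∈ m.T N, β P < 0 → dg β P ≤ 0)
    (hP : 0 < dg m.A P) : 0 ≤ β P := by
  classical
  obtain ⟨S, hS⟩ : ∃ S : Finset (Pl L), ∀ Q, Q ∈ S ↔ 0 < dg m.A Q ∧ β Q < 0 :=
    ⟨((m.fin β (R.isb β hβ)).subset (t := {Q | 0 < dg m.A Q ∧ β Q < 0})
      fun Q k => ⟨k.1, k.2.ne⟩).toFinset, fun Q => by simp⟩
  have U : ∀ Q ∈ S, 0 < dg m.A Q := fun Q k => ((hS Q).1 k).1
  have V : ∀ Q ∈ S, 0 < -β Q := fun Q k => neg_pos.2 ((hS Q).1 k).2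
  have W : ∀ Q ∈ S, dg N Q = 0 := fun Q k => hN.zero_of fun e => by linarith [h1 Q e, V Q k]
  set x := m.cm S fun Q => -β Q with hx
  have xc : x ∈ Car L := m.cm_car R _ U
  have e1 : I2 N x = 0 := by
    rw [R.symm N hN.car x xc, m.I2_cm R _ U hN.car hd]
    exact Finset.sum_eq_zero fun Q k => by rw [W Q k, mul_zero]
  have e2 : I2 β x ≤ 0 := by
    rw [R.symm β hβ x xc, m.I2_cm R _ U hβ hβd]
    exact Finset.sum_nonpos fun Q k => mul_nonpos_of_nonneg_of_nonpos (V Q k).le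
      (h2 Q ⟨U Q k, W Q k⟩ ((hS Q).1 k).2)
  have e3 : 0 ≤ I2 (β + x) x := I2_nonneg' fun Q => by
    rcases (m.nn.nn Q).eq_or_lt with k | k
    · rw [m.cm_det R _ U Q k.symm, mul_zero]
    by_cases s : Q ∈ S
    · rw [Pi.add_apply, hx, m.cm_of_mem R _ U s, add_neg_cancel, zero_mul]
    · rw [Pi.add_apply, hx, m.cm_of_not R _ U k s, add_zero, m.dg_cm R _ U]
      exact mul_nonneg (not_lt.1 fun e => s ((hS Q).2 ⟨k, e⟩)) (Finset.sum_nonneg fun Q' k' =>
        mul_nonneg (V Q' k').le (m.ne_nn R (U Q' k') fun e => s (e ▸ k')))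
  rw [R.add_l (R.isb β hβ) (R.isb x xc) xc] at e3
  have e4 := R.hi0 hN.car xc pos e1 (by linarith) m.nn.car
  rw [m.I2_cm R _ U m.nn.car (.refl _), Finset.sum_eq_zero_iff_of_nonneg fun Q k =>
    (mul_pos (V Q k) (U Q k)).le] at e4
  by_contra k
  have s := (hS P).2 ⟨hP, not_le.1 k⟩
  exact (mul_pos (V P s) (U P s)).ne' (e4 P s)

/-- the intersection matrix of trivial curves is invertible -/
theorem solve (hN : Nn N) (pos : 0 < I2 N N) (hd : Det m.A N) {S : Finset (Pl L)}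
    (hS : ∀ P ∈ S, P ∈ m.T N) (y : Pl L → ℝ) : ∃ h, ∀ Q ∈ S, dg (m.cm S h) Q = y Q := by
  classical
  have U : ∀ Q ∈ S, 0 < dg m.A Q := fun Q k => (hS Q k).1
  let M : Matrix S S ℝ := fun Q P => dg (m.c P) Q
  let ex : (S → ℝ) → Pl L → ℝ := fun h P => if k : P ∈ S then h ⟨P, k⟩ else 0
  have e : ∀ h (Q : S), M.mulVecLin h Q = dg (m.cm S (ex h)) Q := fun h Q => by
    rw [m.dg_cm R _ U, ← Finset.sum_coe_sort S]
    exact Finset.sum_congr rfl fun P _ => by simp [M, ex, mul_comm]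
  have nn : ∀ h, M.mulVecLin h = 0 → 0 ≤ h := fun h k P => by
    have := m.negat R hN pos hd (m.cm_car R (ex h) U) (m.cm_det R _ U)
      (fun Q e' => (m.cm_of_not R _ U (hd.pos m.nn e'.ne') fun s => e'.ne' (hS Q s).2).ge)
      (fun Q t l => by
        have s : Q ∈ S := by_contra fun s => l.ne (m.cm_of_not R _ U t.1 s)
        exact ((e h ⟨Q, s⟩).symm.trans (congrFun k _)).le) (U P P.2)
    rw [m.cm_of_mem R _ U P.2] at this
    simpa [ex] using this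
  have inj : Injective M.mulVecLin := (injective_iff_map_eq_zero _).2 fun h k =>
    le_antisymm (neg_nonneg.1 (nn (-h) (by rw [map_neg, k, neg_zero]))) (nn h k)
  obtain ⟨h, k⟩ := LinearMap.injective_iff_surjective.1 inj fun Q => y Q
  exact ⟨ex h, fun Q s => (e h ⟨Q, s⟩).symm.trans (congrFun k _)⟩

/-- the Mumford pull back on a model -/
theorem mum (hN : Nn N) (pos : 0 < I2 N N) (hd : Det m.A N) (hf : (m.T N).Finite)
    (hγ : γ ∈ Car L) (hγd : Det m.A γ) :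
    ∃ β ∈ Car L, Det m.A β ∧ Det N β ∧ ∀ P, 0 < dg N P → β P = γ P := by
  have hS : ∀ P ∈ hf.toFinset, P ∈ m.T N := fun P k => hf.mem_toFinset.1 k
  have U : ∀ Q ∈ hf.toFinset, 0 < dg m.A Q := fun Q k => (hS Q k).1
  obtain ⟨h, k⟩ := m.solve R hN pos hd hS fun P => -dg γ P
  have d := R.det_add hγd (m.cm_det R h U) hγ (m.cm_car R h U)
  refine ⟨_, add_mem hγ (m.cm_car R h U), d, fun P e => ?_, fun P e => ?_⟩
  · rcases (m.nn.nn P).eq_or_lt with l | l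
    · exact d P l.symm
    · rw [R.add γ hγ _ (m.cm_car R h U), k P (hf.mem_toFinset.2 ⟨l, e⟩), add_neg_cancel]
  · rw [Pi.add_apply, m.cm_of_not R h U (hd.pos m.nn e.ne') fun s => e.ne' (hS P s).2, add_zero]

/-- the pull back of the trace of a b-divisor -/
theorem trace (hZ : IsB 1 Z) : ∃ β ∈ Car L, Det m.A β ∧ (∀ P, 0 < dg m.A P → β P = Z P) ∧
    ((∀ P, 0 < dg m.A P → 0 ≤ Z P) → 0 ≤ β) ∧
    ((∀ P, 0 < dg m.A P → ∃ z : ℤ, Z P = z) → β ∈ CarZ L) := by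
  have U : ∀ Q ∈ (m.fin Z hZ).toFinset, 0 < dg m.A Q := fun Q k =>
    ((m.fin Z hZ).mem_toFinset.1 k).1
  refine ⟨_, m.cm_car R Z U, m.cm_det R Z U, fun P e => ?_, fun k => ?_, fun k => ?_⟩
  · by_cases s : P ∈ (m.fin Z hZ).toFinset
    · exact m.cm_of_mem R Z U s
    · rw [m.cm_of_not R Z U e s]
      by_contra k
      exact s ((m.fin Z hZ).mem_toFinset.2 ⟨e, fun e' => k e'.symm⟩)
  · exact Finset.sum_nonneg fun P s => smul_nonneg (k P (U P s)) (m.c0 P (U P s))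
  · refine sum_mem fun P s => ?_
    obtain ⟨z, hz⟩ := k P (U P s)
    rw [hz]
    exact CarZ.zsmul (m.cZ P (U P s)) z

end Nm

namespace Rows

variable (R : Rows L)
include R

theorem ex1 (hβ : β ∈ Car L) (hγ : γ ∈ Car L) (P : Pl L) :
    ∃ m : Nm L, 0 < dg m.A P ∧ Det m.A β ∧ Det m.A γ := by
  obtain ⟨m, -, a, b⟩ := R.ex {P} {β, γ} (finite_singleton P) (toFinite _)
    (by simp [insert_subset_iff, hβ, hγ])
  exact ⟨m, a P rfl, b β (by simp), b γ (by simp)⟩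

theorem ex2 (hβ : β ∈ Car L) (hγ : γ ∈ Car L) : ∃ m : Nm L, Det m.A β ∧ Det m.A γ := by
  obtain ⟨m, -, -, b⟩ := R.ex ∅ {β, γ} finite_empty (toFinite _)
    (by simp [insert_subset_iff, hβ, hγ])
  exact ⟨m, b β (by simp), b γ (by simp)⟩

/-- a big class is positive on a numerically nef class which is not numerically trivial -/
theorem big_pos (hB : Big B) (hi : IsB 1 B) (hγ : Nn γ) (ha : a ∈ Car L) (h : I2 γ a ≠ 0) :
    0 < I2 B γ := by
  obtain ⟨s, hs⟩ : ∃ s, I2 γ (mx s) ≠ 0 := by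
    by_contra k
    push Not at k
    refine h (Car.ind (p := fun a => I2 γ a = 0) ha (fun s _ => k s) ?_ ?_)
    · intro a b ha hb e e'
      rw [R.add_r (R.isb γ hγ.car) ha hb, e, e', add_zero]
    · intro c a ha e
      rw [R.smul_r c (R.isb γ hγ.car) ha, e, mul_zero]
  obtain ⟨ε, hε, k⟩ := hB s
  have i := R.isb _ (mx_mem_Car s)
  have e1 := R.eff_nn k (isB_sub hi (isB_smul ε i)) hγ
  have e2 := R.eff_nn (eff_mx s) i hγ
  rw [R.sub_l hi (isB_smul ε i) hγ.car, R.smul_l ε i hγ.car] at e1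
  rw [R.symm γ hγ.car _ (mx_mem_Car s)] at hs
  linarith [mul_pos hε (e2.lt_of_ne' hs)]

theorem sq_pos (hN : Nn N) (hb : Big N) : 0 < I2 N N := by
  obtain ⟨m, -⟩ := R.ex2 hN.car hN.car
  have i := R.isb N hN.car
  exact R.big_pos hb i hN m.nn.car (R.big_pos hb i m.nn m.nn.car m.pos.ne').ne'

/-- the negativity lemma -/
theorem negat (hN : Nn N) (pos : 0 < I2 N N) (hβ : β ∈ Car L) (h1 : ∀ P, 0 < dg N P → 0 ≤ β P)
    (h2 : ∀ P, dg N P = 0 → dg β P ≤ 0) : 0 ≤ β := fun P => by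
  obtain ⟨m, a, b, c⟩ := R.ex1 hN.car hβ P
  exact m.negat R hN pos b hβ c h1 (fun Q k _ => h2 Q k.2) a

theorem mum_unique (hN : Nn N) (pos : 0 < I2 N N) (hβ : β ∈ Car L) (hγ : γ ∈ Car L)
    (d : Det N β) (d' : Det N γ) (h : ∀ P, 0 < dg N P → β P = γ P) : β = γ :=
  le_antisymm
    (sub_nonneg.1 (R.negat hN pos (sub_mem hγ hβ) (fun P k => sub_nonneg.2 (h P k).le)
      fun P k => (R.det_sub d' d hγ hβ P k).le))
    (sub_nonneg.1 (R.negat hN pos (sub_mem hβ hγ) (fun P k => sub_nonneg.2 (h P k).ge)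
      fun P k => (R.det_sub d d' hβ hγ P k).le))

/-- **the Mumford pull back** -/
theorem mum (hN : Nn N) (hb : Big N) (hZ : IsB 1 Z) :
    ∃ β ∈ Car L, Det N β ∧ ∀ P, 0 < dg N P → β P = Z P := by
  obtain ⟨m, d, -⟩ := R.ex2 hN.car hN.car
  obtain ⟨γ, a, b, c, -⟩ := m.trace R hZ
  obtain ⟨β, e, -, f, g⟩ := m.mum R hN (R.sq_pos hN hb) d (m.tfin R hN.car hb) a b
  exact ⟨β, e, f, fun P k => (g P k).trans (c P (d.pos m.nn k.ne'))⟩

/-- the Mumford pull back of the push forward of a class which is nef over `N` -/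
theorem le_mum (hN : Nn N) (pos : 0 < I2 N N) (hγ : γ ∈ Car L) (hβ : β ∈ Car L) (d : Det N β)
    (h : ∀ P, 0 < dg N P → γ P ≤ β P) (k : ∀ P, dg N P = 0 → 0 ≤ dg γ P) : γ ≤ β :=
  sub_nonneg.1 (R.negat hN pos (sub_mem hβ hγ) (fun P e => sub_nonneg.2 (h P e)) fun P e => by
    rw [R.sub hβ hγ, d P e, zero_sub]
    exact neg_nonpos.2 (k P e))

theorem mum_nn (hN : Nn N) (pos : 0 < I2 N N) (hγ : Nn γ) (hβ : β ∈ Car L) (d : Det N β)
    (h : ∀ P, 0 < dg N P → β P = γ P) : γ ≤ β ∧ Nn β := by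
  have le := R.le_mum hN pos hγ.car hβ d (fun P e => (h P e).ge) fun P _ => hγ.nn P
  refine ⟨le, hβ, fun P => ?_⟩
  rcases (hN.nn P).eq_or_lt with e | e
  · exact (d P e.symm).ge
  · have := R.eff _ (sub_mem hβ hγ.car) (sub_nonneg.2 le) P (sub_eq_zero.2 (h P e))
    rw [R.sub hβ hγ.car] at this
    linarith [hγ.nn P]

/-- **the minimal resolution** over a nef and big class; it determines every class which is
orthogonal to the `N`-trivial curves -/
theorem minres (hN : Nn N) (hb : Big N) : ∃ m : Nm L, Det m.A N ∧ (m.T N).Finite ∧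
    (∀ P, dg N P = 0 → 0 ≤ dg m.k P) ∧
    ∀ Γ ∈ Car L, Det N Γ → (∀ P, 0 < dg N P → cn L 2 P ≤ Γ P) → m.k ≤ Γ := by
  obtain ⟨m, d, -⟩ := R.ex2 hN.car hN.car
  have pos := R.sq_pos hN hb
  refine Nm.ind R hN.car pos (p := fun _ => _) (fun m d f k => ?_) (fun _ _ _ _ _ k => k) m d
    (m.tfin R hN.car hb)
  have k' : ∀ P, dg N P = 0 → 0 ≤ dg m.k P := fun P e => by
    rcases (m.nn.nn P).eq_or_lt with l | l
    · exact (m.kd P l.symm).ge
    · exact k P ⟨l, e⟩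
  exact ⟨m, d, f, k', fun Γ a b c => R.le_mum hN pos m.kcar a b
    (fun P e => (m.k_le P).trans (c P e)) k'⟩

end Rows

end Vale.Agent.P287D.Sf
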