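import Vale.Agent.P287D.St
import Vale.Agent.P287D.Va.Cone

/-!
# P287D: surfaces, numerical smooth models (definitions)
-/

open Set

noncomputable section

namespace Vale.Agent.P287D.Sf

variable {L : Type} [Field L] [Algebra ℂ L]

/-- the degree of a Cartier b-divisor on the curve `P` -/
def dg (γ : BD L) (P : Pl L) : ℝ := I1 (res P γ)

/-- numerically nef -/
structure Nn (γ : BD L) : Prop where
  car : γ ∈ Car L
  nn : ∀ P, 0 ≤ dg γ P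

/-- `γ` is orthogonal to the curves on which `N` has degree zero -/
def Det (N γ : BD L) : Prop := ∀ P, dg N P = 0 → dg γ P = 0

/-- `Z` is pseudo-effective modulo the curves on which `N` has degree zero -/
def PsM (N Z : BD L) : Prop := ∃ s, ∀ ε : ℝ, 0 < ε →
  ∃ G, G - (Z + ε • mx s) ∈ Prn L ∧ ∀ P, 0 < dg N P → 0 ≤ G P

/-- `N` is integral modulo the curves on which it has degree zero -/
def InM (N : BD L) : Prop := ∃ Z, Z - N ∈ Prn L ∧ ∀ P, 0 < dg N P → ∃ z : ℤ, Z P = z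

variable (L) in
/-- a numerical smooth model: the curves are the places where `A` is positive, `c P` is the pull
back of the curve `P`, `k` is the pull back of the canonical divisor -/
structure Nm where
  A : BD L
  c : Pl L → BD L
  k : BD L
  nn : Nn A
  pos : 0 < I2 A A
  fin : ∀ Z, IsB 1 Z → {P | 0 < dg A P ∧ Z P ≠ 0}.Finite
  cZ : ∀ P, 0 < dg A P → c P ∈ CarZ L
  c0 : ∀ P, 0 < dg A P → 0 ≤ c P
  cδ : ∀ P Q, 0 < dg A P → 0 < dg A Q → c P Q = P.δ Q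
  cd : ∀ P, 0 < dg A P → Det A (c P)
  kZ : k ∈ CarZ L
  ko : ∀ P, 0 < dg A P → k P = cn L 2 P
  ke : ∀ P, dg A P = 0 → k P + 1 ≤ cn L 2 P
  kd : Det A k
  gen : ∀ P, 0 < dg A P → 2 * (pg P.κ 1 : ℝ) - 2 ≤ dg (c P) P + dg k P

variable (L) in
/-- the facts on a surface field which are used -/
structure Rows : Prop where
  add : ∀ β ∈ Car L, ∀ γ ∈ Car L, ∀ P, dg (β + γ) P = dg β P + dg γ P
  smul : ∀ (c : ℝ), ∀ β ∈ Car L, ∀ P, dg (c • β) P = c * dg β P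
  prn : ∀ β ∈ Prn L, ∀ P, dg β P = 0
  eff : ∀ β ∈ Car L, 0 ≤ β → ∀ P, β P = 0 → 0 ≤ dg β P
  int : ∀ β ∈ CarZ L, ∀ P, ∃ z : ℤ, dg β P = z
  isb : ∀ β ∈ Car L, IsB 1 β
  cnb : IsB 1 (cn L 2)
  cnz : IsZ (cn L 2)
  symm : ∀ β ∈ Car L, ∀ γ ∈ Car L, I2 β γ = I2 γ β
  hi : ∀ a ∈ Car L, ∀ b ∈ Car L, 0 < I2 a a → I2 a b = 0 → I2 b b ≤ 0
  ex : ∀ (T : Set (Pl L)) (B : Set (BD L)), T.Finite → B.Finite → B ⊆ Car L →
    ∃ m : Nm L, (∃ s, m.A = mx s ∧ Big (mx s)) ∧ (∀ P ∈ T, 0 < dg m.A P) ∧ ∀ β ∈ B, Det m.A β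

/-- the genus inequality on the high models -/
def GenM : Prop := ∀ (L : Type) [Field L] [Algebra ℂ L], FF L 2 →
  ∀ (T : Set (Pl L)) (B : Set (BD L)), T.Finite → B.Finite → B ⊆ Car L →
    ∃ s Γ, Term 1 (mx s) Γ ∧ Γ ∈ CarZ L ∧ (∀ P ∈ T, On 1 (mx s) P) ∧
      (∀ β ∈ B, Dsc (mx s) β) ∧ (∀ P, ¬ On 1 (mx s) P → 1 ≤ dsc 2 Γ P) ∧
      ∀ P, On 1 (mx s) P → ∃ β ∈ CarZ L, Hull 1 (mx s) P.δ β ∧
        2 * (pg P.κ 1 : ℝ) - 2 ≤ I2 P.δ β + I2 P.δ Γ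

end Vale.Agent.P287D.Sf
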