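import Vale.Agent.P287D.Sf.Key

/-!
# P287D: surfaces of type S, the bounds for the degree (KL, PEN)
-/

set_option linter.unusedVariables false
set_option linter.unusedSectionVars false

open Set

noncomputable section

namespace Vale.Agent.P287D.Sf

variable {L : Type} [Field L] [Algebra ℂ L] {Z β γ N a b C H Γ : BD L} {P Q D : Pl L} {f : L}
  {n x : ℝ}

/-- `n N - K` is pseudo-effective modulo the `N`-trivial curves, numerically -/
def Adj (n : ℝ) (N : BD L) : Prop := ∀ γ, Nn γ → Det N γ → I2 (cn L 2) γ ≤ n * I2 N γ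

namespace Rows

variable (R : Rows L)
include R

theorem adj_of (hN : Nn N) (h : PsM N (n • N - cn L 2)) : Adj n N := fun γ hγ d => by
  have i := R.isb N hN.car
  have := R.psm_nn h (isB_sub (isB_smul n i) R.cnb) hN hγ d
  rwa [R.sub_l (isB_smul n i) R.cnb hγ.car, R.smul_l n i hγ.car, sub_nonneg] at this

theorem adj_of_psef (hN : Nn N) (hZ : IsB 1 Z) (h : Psef (n • N - Z))
    (k : ∀ P, 0 < dg N P → cn L 2 P ≤ Z P) : Adj n N := fun γ hγ d => by
  have i := R.isb N hN.car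
  have := R.psef_nn h (isB_sub (isB_smul n i) hZ) hγ
  rw [R.sub_l (isB_smul n i) hZ hγ.car, R.smul_l n i hγ.car, sub_nonneg] at this
  exact (R.mono_l R.cnb hZ hγ fun P e => k P (d.pos hN e.ne')).trans this

/-- the pairs: `Γ = K + B` with `B ≥ 0` on `V N` and `n N - Γ` pseudo-effective -/
theorem adj_of_bdy (hN : Nn N) (hΓ : Γ ∈ Car L) (h : Psef (n • N - Γ)) (k : Bdy 1 N Γ) :
    Adj n N := R.adj_of_psef hN (R.isb Γ hΓ) h fun P e => sub_nonpos.1 (k P (on_iff.2 e))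

theorem adj_mono (hN : Nn N) (hb : Big N) (h : Adj n N) {n' : ℝ} (k : n ≤ n') : Adj n' N :=
  fun γ hγ d => (h γ hγ d).trans
    (mul_le_mul_of_nonneg_right k (R.eff_nn hb.eff (R.isb N hN.car) hγ))

/-- Cauchy-Schwarz after the projection to the orthogonal of `a` -/
theorem cs' (ha : a ∈ Car L) (hb : b ∈ Car L) (hγ : γ ∈ Car L) (h : 0 < I2 a a) :
    (I2 a a * I2 b γ - I2 a b * I2 a γ) ^ 2 ≤
      (I2 a b ^ 2 - I2 a a * I2 b b) * (I2 a γ ^ 2 - I2 a a * I2 γ γ) := by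
  have ia := R.isb a ha
  have s := fun (c : ℝ) {x : BD L} (k : x ∈ Car L) => Submodule.smul_mem (Car L) c k
  have o : ∀ x ∈ Car L, I2 a (I2 a a • x - I2 a x • a) = 0 := fun x k => by
    rw [R.sub_r ia (s _ k) (s _ ha), R.smul_r _ ia k, R.smul_r _ ia ha, mul_comm, sub_self]
  have e : ∀ x ∈ Car L, ∀ y ∈ Car L, I2 (I2 a a • x - I2 a x • a) (I2 a a • y - I2 a y • a) =
      I2 a a * (I2 a a * I2 x y - I2 a x * I2 a y) := fun x k y l => by
    have m := sub_mem (s (I2 a a) l) (s (I2 a y) ha)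
    have ix := R.isb x k
    rw [R.sub_l (R.isb _ (s _ k)) (R.isb _ (s _ ha)) m, R.smul_l _ ix m, R.smul_l _ ia m, o y l,
      R.sub_r ix (s _ l) (s _ ha), R.smul_r _ ix l, R.smul_r _ ix ha, R.symm x k a ha]
    ring
  have := R.cs ha (sub_mem (s _ hb) (s _ ha)) (sub_mem (s _ hγ) (s _ ha)) h (o b hb) (o γ hγ)
  rw [e b hb γ hγ, e b hb b hb, e γ hγ γ hγ] at this
  refine le_of_mul_le_mul_left ?_ (pow_pos h 2)
  nlinarith

end Rows

namespace PS

variable (h : PS H f) (R : Rows L)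
include h R

/-- a curve of the surface is `N`-trivial: `n λ ≥ 1 / 3` -/
theorem lam_triv (hN : Nn N) (hb : Big N) (ha : Adj n N) (hD : 0 < dg H D) (h0 : dg N D = 0) :
    I2 H H ≤ 3 * (n * I2 N H) := by
  obtain ⟨m, d, d'⟩ := R.ex2 hN.car h.smp.car
  have hH := h.smp.car
  have pos := R.sq_pos hN hb
  refine Nm.ind R hN.car pos (p := fun m => Det m.A H → I2 H H ≤ 3 * (n * I2 N H))
    (fun m d hf k d' => ?_) (fun m E e d t ih d' => ih (Nm.det_push_of R e d' (h.neg_triv R d' e)))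
    m d (m.tfin R hN.car hb) d'
  obtain ⟨β, b1, b2, b3, b4⟩ := m.mum R hN pos d hf hH d'
  obtain ⟨le, nn⟩ := R.mum_nn hN pos (h.nn R) b1 b3 b4
  have u := d'.pos m.nn hD.ne'
  have xc := sub_mem b1 hH
  have xd := R.det_sub b2 d' b1 hH
  have x0 : ∀ Q, 0 ≤ (β - H) Q := sub_nonneg.2 le
  have e1 := ha β nn b3
  rw [R.symm N hN.car β b1, I2_congr fun P l => b4 P (hN.pos_of l), R.symm H hH N hN.car] at e1
  have e2 : (β - H) D * dg m.k D ≤ I2 (β - H) m.k :=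
    R.le_I2 (R.isb _ xc) m.kcar (fun Q => by
      rcases (hN.nn Q).eq_or_lt with l | l
      · rcases (m.nn.nn Q).eq_or_lt with j | j
        · rw [m.kd Q j.symm, mul_zero]
        · exact mul_nonneg (x0 Q) (k Q ⟨j, l.symm⟩)
      · rw [Pi.sub_apply, b4 Q l, sub_self, zero_mul]) D
  rw [m.I2_k' R xc xd, R.sub_r R.cnb b1 hH, h.cn_det R hH (.refl H), sub_zero] at e2
  have e3 : 0 ≤ I2 (β - H - (β - H) D • D.δ) (m.c D) := I2_nonneg' fun Q => by
    by_cases l : Q = D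
    · simp [l, Pl.δ_self]
    · rw [Pi.sub_apply, Pi.smul_apply, Pl.δ_ne l, smul_zero, sub_zero]
      exact mul_nonneg (x0 Q) (m.ne_nn R u l)
  rw [R.sub_l (R.isb _ xc) (isB_smul _ (isB_δ D)) (m.car u), R.smul_l _ (isB_δ D) (m.car u), I2_δ,
    m.I2_c' R u xc xd, R.sub b1 hH, b3 D h0] at e3
  have e4 := h.le_dg R hD
  have e5 := m.sq_neg R hN.car pos d ⟨u, h0⟩
  obtain ⟨k1, k2⟩ := h.k_nn R m d' u hD
  obtain ⟨z, hz⟩ := R.int _ m.kZ D
  have e6 : 1 ≤ dg m.k D := by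
    have := k1.lt_of_ne fun e => e5.not_gt (k2 e.symm)
    rw [hz] at this ⊢
    exact_mod_cast (by exact_mod_cast this : 0 < z)
  have e7 := m.gen D u
  have e8 : (0 : ℝ) ≤ pg D.κ 1 := Nat.cast_nonneg _
  have e9 : -dg (m.c D) D ≤ 3 * dg m.k D := by linarith
  nlinarith [mul_le_mul_of_nonneg_left e9 (x0 D)]

theorem big_pos (hN : Nn N) (hb : Big N) : 0 < I2 N H :=
  R.big_pos hb (R.isb N hN.car) (h.nn R) h.smp.car h.pos.ne'

/-- **the coefficient of `H`** -/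
theorem lam (hN : Nn N) (hb : Big N) (hi : InM N) (ha : Adj n N) (h1 : 1 ≤ 3 * n) :
    I2 H H ≤ 3 * (n * I2 N H) := by
  by_cases k : ∃ D, 0 < dg H D ∧ dg N D = 0
  · obtain ⟨D, a, b⟩ := k
    exact h.lam_triv R hN hb ha a b
  · obtain ⟨Z, a, b⟩ := hi
    have p := h.big_pos R hN hb
    have := h.le_of_int R hN.car a (fun P e => b P (hN.pos_of fun l => k ⟨P, e, l⟩)) p
    nlinarith

/-- the bound from the coefficient of `H`, the square and the canonical degree -/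
theorem le_of_lam (hC : Nn C) {c : ℝ} (hc : I2 H H ≤ c * I2 C H) :
    I2 H H ≤ c ^ 2 * (I2 C C + I2 (cn L 2) C ^ 2) := by
  have k := h.key R hC
  rw [div_le_iff₀ h.pos] at k
  refine le_of_mul_le_mul_right ?_ h.pos
  have := pow_le_pow_left₀ h.pos.le hc 2
  nlinarith [mul_le_mul_of_nonneg_left k (sq_nonneg c)]

/-- **KL (a)** -/
theorem kla (hN : Nn N) (hb : Big N) (hi : InM N) (ha : Adj n N) (h1 : 1 ≤ 3 * n) :
    I2 H H ≤ 9 * n ^ 2 * (I2 N N + (n * I2 N N) ^ 2) := by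
  have := h.le_of_lam R hN (c := 3 * n) (mul_assoc 3 n _ ▸ h.lam R hN hb hi ha h1)
  have e := pow_le_pow_left₀ (h.cn_nn R hN) (ha N hN (.refl N)) 2
  nlinarith [sq_nonneg n]

/-- **PEN** -/
theorem pen (hC : Nn C) (e : Z - C ∈ Prn L) (i : ∀ P, 0 < dg H P → ∃ z : ℤ, Z P = z)
    (ha : a ∈ Car L) (k : I2 C a ≠ 0) : I2 H H ≤ I2 C C + I2 (cn L 2) C ^ 2 := by
  simpa using h.le_of_lam R hC (c := 1)
    (by simpa using h.le_of_int R hC.car e i (h.pos_of R hC ha k))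

/-- **KL (b)**, with the coefficients of `H` as hypotheses -/
theorem klb' (hN : Nn N) (hb : Big N) (ha : Adj n N) (hn : 0 ≤ n) {c c' : ℝ}
    (hl : I2 H H ≤ c * I2 N H) (hC : Nn C) (hc : I2 H H ≤ c' * I2 C H) (hx : I2 N C ≤ x) :
    I2 H H ≤ c' * (c * x + n * x * √(I2 H H)) := by
  have hH := h.smp.car
  have pos := R.sq_pos hN hb
  obtain ⟨γ, g1, g2, g3⟩ := R.mum hN hb (R.isb C hC.car)
  obtain ⟨le, nn⟩ := R.mum_nn hN pos hC g1 g2 g3
  have e0 : I2 N γ ≤ x := by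
    rwa [R.symm N hN.car γ g1, I2_congr fun P l => g3 P (hN.pos_of l), R.symm C hC.car N hN.car]
  have e1 := ha γ nn g2
  have e2 := h.cn_nn R nn
  have e3 : I2 C H ≤ I2 γ H := R.mono_l (R.isb C hC.car) (R.isb γ g1) (h.nn R) fun P _ => le P
  have e4 := h.key R nn
  have e5 := R.cs' hH hN.car g1 h.pos
  have e6 := R.eff_nn hb.eff (R.isb N hN.car) nn
  have p := h.big_pos R hN hb
  have q := R.eff_nn h.smp.eff (R.isb H hH) hC
  rw [div_le_iff₀ h.pos] at e4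
  rw [R.symm H hH N hN.car, R.symm H hH γ g1] at e5
  rw [R.symm H hH C hC.car] at q
  have hp := h.pos
  have r0 := Real.sqrt_nonneg (I2 H H)
  have r := Real.sq_sqrt hp.le
  set v := I2 H H
  set r' := √v
  set P' := I2 N H
  set q' := I2 γ H
  set y := I2 N γ
  set κ := I2 (cn L 2) γ
  have c0 : 0 < c := (mul_pos_iff_of_pos_right p).1 (hp.trans_le hl)
  have c1 : 0 ≤ c' := by
    by_contra k
    nlinarith [mul_nonneg (neg_pos.2 (not_le.1 k)).le q]
  have a1 : (v * y - P' * q') ^ 2 ≤ (P' * κ * r') ^ 2 := by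
    refine e5.trans ?_
    have b1 : 0 ≤ q' ^ 2 - v * I2 γ γ := by
      have := R.hodge hH g1 h.pos
      rw [R.symm H hH γ g1] at this
      linarith
    calc _ ≤ P' ^ 2 * (q' ^ 2 - v * I2 γ γ) :=
          mul_le_mul_of_nonneg_right (by nlinarith [mul_pos hp pos]) b1
      _ ≤ P' ^ 2 * (κ ^ 2 * v) := mul_le_mul_of_nonneg_left (by linarith) (sq_nonneg _)
      _ = _ := by rw [mul_pow, mul_pow, r, mul_assoc]
  have a2 : P' * q' - v * y ≤ P' * κ * r' := by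
    have := (abs_le_of_sq_le_sq' a1 (by positivity)).1
    linarith
  have a3 : q' ≤ c * y + κ * r' := by
    refine le_of_mul_le_mul_left ?_ p
    nlinarith [mul_le_mul_of_nonneg_right hl e6]
  have a4 : κ * r' ≤ n * x * r' :=
    mul_le_mul_of_nonneg_right (e1.trans (mul_le_mul_of_nonneg_left e0 hn)) r0
  have a5 := mul_le_mul_of_nonneg_left e0 c0.le
  exact hc.trans (mul_le_mul_of_nonneg_left (by linarith) c1)

omit h R in
theorem le_sq {v y z : ℝ} (hv : 0 ≤ v) (hy : 0 ≤ y) (hz : 0 ≤ z) (k : v ≤ z + y * √v) :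
    v ≤ y ^ 2 + 2 * z := by
  nlinarith [Real.sq_sqrt hv, sq_nonneg (√v - y)]

/-- **KL (b)** -/
theorem klb (hN : Nn N) (hb : Big N) (hi : InM N) (ha : Adj n N) (h1 : 1 ≤ 3 * n) (hC : Nn C)
    (e : Z - C ∈ Prn L) (i : ∀ P, 0 < dg H P → ∃ z : ℤ, Z P = z) (hc : a ∈ Car L)
    (k : I2 C a ≠ 0) (hx : I2 N C ≤ x) : I2 H H ≤ (n * x) ^ 2 + 6 * (n * x) := by
  have n0 : 0 ≤ n := by linarith
  have x0 : 0 ≤ x := (R.eff_nn hb.eff (R.isb N hN.car) hC).trans hx
  have := h.klb' R hN hb ha n0 (c := 3 * n) (c' := 1) (mul_assoc 3 n _ ▸ h.lam R hN hb hi ha h1)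
    hC (by simpa using h.le_of_int R hC.car e i (h.pos_of R hC hc k)) hx
  have := le_sq h.pos.le (mul_nonneg n0 x0) (z := 3 * n * x) (by positivity) (by linarith)
  linarith

end PS

end Vale.Agent.P287D.Sf
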