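import Vale.Agent.P287D.Sf.Mum

/-!
# P287D: surfaces of type S, the key inequality
-/

set_option linter.unusedVariables false
set_option linter.unusedSectionVars false

open Set

noncomputable section

namespace Vale.Agent.P287D.Sf

variable {L : Type} [Field L] [Algebra ℂ L] {Z β γ N a b C H : BD L} {P Q E : Pl L} {f : L}

/-- the numerical part of `IsS` -/
structure PS (H : BD L) (f : L) : Prop where
  smp : Smp H
  pos : 0 < I2 H H
  on : ∀ P, On 1 H P → (cn L 2 + dv f) P = 0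
  exc : ∀ P, ¬ On 1 H P → 1 ≤ (cn L 2 + dv f) P
  crv : ∀ P, On 1 H P → ∃ (m : ℕ) (β : BD L), 0 < m ∧ β ∈ Car L ∧ Det H β ∧
    (∀ Q, On 1 H Q → β Q = P.δ Q) ∧ ∀ γ ∈ Car L, I2 β γ = m * I2 H γ

theorem _root_.Vale.Agent.P287D.IsS.ps {d : ℕ} (h : IsS d L H f) (R : Rows L) (hd : 0 < d) :
    PS H f where
  smp := h.smp
  pos := lt_of_lt_of_le (by exact_mod_cast hd) h.deg
  on := h.on
  exc := h.exc
  crv P k :=
    let ⟨m, β, a, b, c, e⟩ := h.crv P k
    ⟨m, β, a, CarZ.car b, (R.det_dsc c.1 h.smp.car).2, c.2, e⟩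

namespace PS

variable (h : PS H f)
include h

theorem k0 : 0 ≤ cn L 2 + dv f := fun P => by
  by_cases k : On 1 H P
  · exact (h.on P k).ge
  · exact zero_le_one.trans (h.exc P k)

theorem eff : Eff (cn L 2) := eff_iff.2 ⟨_, dv_mem_Prn f, h.k0⟩

variable (R : Rows L)
include R

theorem nn : Nn H := R.nn_smp h.smp

theorem cn_eq (hγ : γ ∈ Car L) : I2 (cn L 2) γ = I2 (cn L 2 + dv f) γ :=
  (R.congr_l R.cnb (by simpa using dv_mem_Prn f) hγ).symm

theorem cn_nn (hγ : Nn γ) : 0 ≤ I2 (cn L 2) γ := R.eff_nn h.eff R.cnb hγ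

theorem cn_det (hγ : γ ∈ Car L) (d : Det H γ) : I2 (cn L 2) γ = 0 := by
  rw [h.cn_eq R hγ]
  exact I2_zero fun P k => d P ((h.nn R).zero_of fun e => k (h.on P (on_iff.2 e)))

theorem dg_eq (k : 0 < dg H P) : ∃ m : ℕ, 0 < m ∧
    ∀ γ ∈ Car L, Det H γ → dg γ P = m * I2 H γ := by
  obtain ⟨m, β, a, b, c, d, e⟩ := h.crv P (on_iff.2 k)
  refine ⟨m, a, fun γ hγ hd => ?_⟩
  rw [← e γ hγ, ← I2_δ]
  exact I2_congr fun Q l => (d Q (on_iff.2 (hd.pos (h.nn R) l))).symm

theorem le_dg (k : 0 < dg H P) : I2 H H ≤ dg H P := by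
  obtain ⟨m, a, b⟩ := h.dg_eq R k
  rw [b H h.smp.car (.refl H)]
  exact le_mul_of_one_le_left h.pos.le (by exact_mod_cast a)

/-- the classes of the surface are proportional to `H` -/
theorem prop (hβ : β ∈ Car L) (d : Det H β) (hZ : IsB 1 Z) :
    I2 H H * I2 Z β = I2 H β * I2 Z H := by
  have h1 := Submodule.smul_mem _ (I2 H H) hβ
  have h2 := Submodule.smul_mem _ (I2 H β) h.smp.car
  rw [← R.smul_r _ hZ hβ, ← R.smul_r _ hZ h.smp.car, ← sub_eq_zero, ← R.sub_r hZ h1 h2]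
  refine I2_zero fun P _ => ?_
  rw [R.sub h1 h2, R.smul _ β hβ, R.smul _ H h.smp.car]
  rcases ((h.nn R).nn P).eq_or_lt with k | k
  · rw [d P k.symm, ← k]
    simp
  · obtain ⟨m, -, b⟩ := h.dg_eq R k
    rw [b β hβ d, b H h.smp.car (.refl H)]
    ring

theorem int (k : ∀ P, 0 < dg H P → ∃ z : ℤ, Z P = z) : ∃ z : ℤ, I2 Z H = z * I2 H H := by
  rw [I2_eq Z]
  refine finsum_induction (fun x : ℝ => ∃ z : ℤ, x = z * I2 H H) ⟨0, by simp⟩ ?_ fun P => ?_
  · rintro _ _ ⟨a, rfl⟩ ⟨b, rfl⟩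
    exact ⟨a + b, by push_cast; ring⟩
  · rcases ((h.nn R).nn P).eq_or_lt with e | e
    · exact ⟨0, by simp [← e]⟩
    · obtain ⟨m, -, b⟩ := h.dg_eq R e
      obtain ⟨z, hz⟩ := k P e
      exact ⟨z * m, by rw [b H h.smp.car (.refl H), hz]; push_cast; ring⟩

theorem tfin (m : Nm L) : (m.T H).Finite :=
  (m.fin _ (isB_add R.cnb (R.isb _ (dv_mem_Car f)))).subset fun P k =>
    ⟨k.1, (zero_lt_one.trans_le (h.exc P fun e => (on_iff.1 e).ne' k.2)).ne'⟩

/-- the canonical degree of a curve of the surface on a model -/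
theorem k_nn (m : Nm L) (hd : Det m.A H) (hP : 0 < dg m.A P) (k : 0 < dg H P) :
    0 ≤ dg m.k P ∧ (dg m.k P = 0 → 0 < dg (m.c P) P) := by
  have t : ∀ Q, 0 ≤ (cn L 2 + dv f) Q * dg (m.c P) Q := fun Q => by
    by_cases e : Q = P
    · rw [e, h.on P (on_iff.2 k), zero_mul]
    · exact mul_nonneg (h.k0 Q) (m.ne_nn R hP e)
  rw [← m.cn_c R hP, h.cn_eq R (m.car hP)]
  refine ⟨I2_nonneg' t, fun e => ?_⟩
  have d : Det H (m.c P) := fun Q l => by
    have := R.le_I2 (isB_add R.cnb (R.isb _ (dv_mem_Car f))) (m.car hP) t Q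
    have e1 := h.exc Q fun e => (on_iff.1 e).ne' l
    have e2 := m.ne_nn R hP (Q := Q) fun e => k.ne' (e ▸ l)
    nlinarith
  obtain ⟨j, a, b⟩ := h.dg_eq R k
  rw [b _ (m.car hP) d, m.I2_c' R hP h.smp.car hd]
  exact mul_pos (by exact_mod_cast a) k

theorem neg_triv {m : Nm L} (hd : Det m.A H) (e : m.Neg E) : dg H E = 0 :=
  (h.nn R).zero_of fun k => by linarith [(h.k_nn R m hd e.pos k).1, e.can]

/-- **the key inequality** for numerically nef classes -/
theorem key (hγ : Nn γ) : I2 γ H ^ 2 / I2 H H ≤ I2 γ γ + I2 (cn L 2) γ ^ 2 := by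
  obtain ⟨m, d, d'⟩ := R.ex2 h.smp.car hγ.car
  have hH := h.smp.car
  refine Nm.ind R hH h.pos (p := fun m => ∀ γ, Nn γ → Det m.A γ →
    I2 γ H ^ 2 / I2 H H ≤ I2 γ γ + I2 (cn L 2) γ ^ 2) (fun m d _ k γ hγ d' => ?_)
    (fun m E e d t ih γ hγ d' => ?_) m d (h.tfin R m) γ hγ d'
  · have c := add_mem m.kcar (dv_mem_Car f)
    have u : Det H m.A := fun P l => m.nn.zero_of fun e => by
      have := m.negat R (h.nn R) h.pos d (neg_mem c)
        (fun Q l => by rw [R.neg c, R.congr m.kcar (by simpa using dv_mem_Prn f), m.kd Q l,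
          neg_zero])
        (fun Q l => by
          have := h.on Q (on_iff.2 l)
          rw [Pi.add_apply, ← m.ko Q (d.pos m.nn l.ne')] at this
          exact (neg_eq_zero.2 this).ge)
        (fun Q l _ => by
          rw [R.neg c, R.congr m.kcar (by simpa using dv_mem_Prn f)]
          exact neg_nonpos.2 (k Q l)) e
      have e1 := h.exc P fun e => (on_iff.1 e).ne' l
      rw [Pi.add_apply, ← m.ko P e] at e1
      rw [Pi.neg_apply, Pi.add_apply] at this
      linarith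
    have := h.prop R hγ.car (u.trans d') (R.isb γ hγ.car)
    rw [R.symm H hH γ hγ.car, ← sq] at this
    rw [← this, mul_div_cancel_left₀ _ h.pos.ne']
    exact le_add_of_nonneg_right (sq_nonneg _)
  · have n' := Nm.push_nn R e hγ.car (fun Q _ => hγ.nn Q) (hγ.nn E)
    have i := ih _ n' (Nm.det_push R e hγ.car d')
    have p := h.cn_nn R n'
    rw [Nm.I2_push_l R e hγ.car hH d, t, mul_zero, add_zero,
      Nm.I2_push R e hγ.car hγ.car d' d', Nm.cn_push R e hγ.car] at i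
    rw [Nm.cn_push R e hγ.car] at p
    nlinarith [hγ.nn E]

/-- a numerically nef class which is not numerically trivial has positive degree -/
theorem pos_of (hC : Nn C) (ha : a ∈ Car L) (k : I2 C a ≠ 0) : 0 < I2 C H := by
  obtain ⟨s, hs⟩ : ∃ s, I2 C (mx s) ≠ 0 := by
    by_contra e
    push Not at e
    refine k (Car.ind (p := fun a => I2 C a = 0) ha (fun s _ => e s) ?_ ?_)
    · intro a b ha hb e e'
      rw [R.add_r (R.isb C hC.car) ha hb, e, e', add_zero]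
    · intro c a ha e
      rw [R.smul_r c (R.isb C hC.car) ha, e, mul_zero]
  have hH := h.smp.car
  have c := mx_mem_Car s
  obtain ⟨m, d, d'⟩ := R.ex2 hH c
  obtain ⟨β, b1, -, b2, b3⟩ := m.mum R (h.nn R) h.pos d (h.tfin R m) c d'
  have le := (R.mum_nn (h.nn R) h.pos (R.nn_smp (smp_mx s)) b1 b2 b3).1
  have e1 := R.mono_l (R.isb _ c) (R.isb β b1) hC fun P _ => le P
  have e2 := R.eff_nn (eff_mx s) (R.isb _ c) hC
  have e3 := h.prop R b1 b2 (R.isb C hC.car)
  have e4 := R.eff_nn h.smp.eff (R.isb H hH) hC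
  rw [R.symm H hH C hC.car] at e4
  rw [R.symm C hC.car _ c] at hs
  refine e4.lt_of_ne fun e => ?_
  rw [← e, mul_zero, R.symm C hC.car β b1] at e3
  have := (mul_eq_zero.1 e3).resolve_left h.pos.ne'
  exact hs (by linarith)

/-- an integral nef class has degree at least `H ^ 2` -/
theorem le_of_int (hC : C ∈ Car L) (e : Z - C ∈ Prn L) (i : ∀ P, 0 < dg H P → ∃ z : ℤ, Z P = z)
    (k : 0 < I2 C H) : I2 H H ≤ I2 C H := by
  obtain ⟨z, hz⟩ := h.int R i
  rw [R.congr_l (R.isb C hC) e h.smp.car] at hz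
  rw [hz] at k ⊢
  have : 0 < z := by exact_mod_cast (mul_pos_iff_of_pos_right h.pos).1 k
  exact le_mul_of_one_le_left h.pos.le (by exact_mod_cast this)

end PS

end Vale.Agent.P287D.Sf
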