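import Vale.Agent.P287D.Sf.Mum

/-!
# P287D: surfaces with a pseudo-effective canonical class
-/

set_option linter.unusedVariables false
set_option linter.unusedSectionVars false

open Set

noncomputable section

namespace Vale.Agent.P287D.Sf

variable {L : Type} [Field L] [Algebra ℂ L] {Z β γ N a Γ Λ Λ₀ : BD L} {c : ℝ}

theorem eff_of_h0 (h : h0 β ≠ 0) : Eff β := by
  obtain ⟨f, a, b⟩ := (H0 β).ne_bot_iff.1 fun e => h (by rw [h0, e, finrank_bot])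
  exact (mem_H0.1 a).eff b

theorem eff_of_pg {n : ℕ} (h : pg L n ≠ 0) : Eff (cn L n) := eff_of_h0 h

namespace Rows

variable (R : Rows L)
include R

/-- a class above the canonical class is not negative on nef classes -/
theorem nu (hK : Psef (cn L 2)) (hZ : IsB 1 Z) (hγ : Nn γ)
    (h : ∀ P, 0 < dg γ P → cn L 2 P ≤ Z P) : 0 ≤ I2 Z γ :=
  (R.psef_nn hK R.cnb hγ).trans (R.mono_l R.cnb hZ hγ h)

/-- `-(K + B)` is not big over a base of dimension at most one; numerical form -/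
theorem nu_big (hK : Psef (cn L 2)) (hΛ : Nn Λ) (ha : a ∈ Car L) (ne : I2 Λ a ≠ 0) (hZ : IsB 1 Z)
    (h : ∀ P, 0 < dg Λ P → cn L 2 P ≤ Z P) (h0 : Nn Λ₀) (d : Det Λ Λ₀) (sq : I2 Λ₀ Λ₀ = 0) :
    ¬ Big (c • Λ₀ - Z) := fun hb => by
  have i := R.isb _ h0.car
  have i' := isB_sub (isB_smul c i) hZ
  by_cases k : ∃ b ∈ Car L, I2 Λ₀ b ≠ 0
  · obtain ⟨b, hb', k⟩ := k
    have := R.big_pos hb i' h0 hb' k
    rw [R.sub_l (isB_smul c i) hZ h0.car, R.smul_l c i h0.car, sq] at this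
    linarith [R.nu hK hZ h0 fun P e => h P (d.pos hΛ e.ne')]
  · push Not at k
    have := R.big_pos hb i' hΛ ha ne
    rw [R.sub_l (isB_smul c i) hZ hΛ.car, R.smul_l c i hΛ.car, k Λ hΛ.car] at this
    linarith [R.nu hK hZ hΛ h]

/-- **NU**: on a surface with pseudo-effective canonical class `-(K + B)` is not big over a base
of dimension at most one -/
theorem nu_bdy (hK : Psef (cn L 2)) (hΛ : Nef Λ) (hb : Big Λ) (hΓ : Γ ∈ Car L) (h : Bdy 1 Λ Γ)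
    (h0 : Nef Λ₀) (d : Dsc Λ Λ₀) (sq : I2 Λ₀ Λ₀ = 0) : ¬ Big (c • Λ₀ - Γ) :=
  R.nu_big hK (R.nn_nef hΛ) hΛ.car (R.sq_pos (R.nn_nef hΛ) hb).ne' (R.isb Γ hΓ)
    (fun P e => sub_nonpos.1 (h P (on_iff.2 e))) (R.nn_nef h0) (R.det_dsc d hΛ.car).2 sq

theorem nu_pt (hK : Psef (cn L 2)) (hΛ : Nef Λ) (hb : Big Λ) (hΓ : Γ ∈ Car L) (h : Bdy 1 Λ Γ) :
    ¬ Big (-Γ) := by
  have z : Nn (0 : BD L) := R.nn_smp Smp.zero
  simpa using R.nu_big (c := 0) hK (R.nn_nef hΛ) hΛ.car (R.sq_pos (R.nn_nef hΛ) hb).ne'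
    (R.isb Γ hΓ) (fun P e => sub_nonpos.1 (h P (on_iff.2 e))) z (fun P _ => R.zero P)
    (R.prn_r _ (zero_mem _))

end Rows

end Vale.Agent.P287D.Sf
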