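import Vale.Agent.P287D.Sf.Bas

/-!
# P287D: surfaces, numerical models and the contraction of `(-1)`-curves
-/

set_option linter.unusedVariables false
set_option linter.unusedSectionVars false

open Set Function

noncomputable section

namespace Vale.Agent.P287D.Sf

variable {L : Type} [Field L] [Algebra ℂ L] {Z Z' β γ γ' N a b G Λ : BD L} {P Q E : Pl L} {c : ℝ}

theorem Rows.sum_l (R : Rows L) {ι : Type*} (T : Finset ι) {f : ι → BD L}
    (h : ∀ i ∈ T, f i ∈ Car L) (hγ : γ ∈ Car L) : I2 (∑ i ∈ T, f i) γ = ∑ i ∈ T, I2 (f i) γ := by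
  classical
  induction T using Finset.induction_on with
  | empty => simpa using R.prn_l (zero_mem _) hγ
  | insert i T hi ih =>
    rw [Finset.sum_insert hi, Finset.sum_insert hi, R.add_l (R.isb _ (h i (by simp)))
      (R.isb _ (sum_mem fun j hj => h j (by simp [hj]))) hγ, ih fun j hj => h j (by simp [hj])]

namespace Nm

variable (m : Nm L)

theorem car (h : 0 < dg m.A P) : m.c P ∈ Car L := CarZ.car (m.cZ P h)

theorem kcar : m.k ∈ Car L := CarZ.car m.kZ

theorem c_self (h : 0 < dg m.A P) : m.c P P = 1 := by rw [m.cδ P P h h, Pl.δ_self]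

theorem k_le : m.k ≤ cn L 2 := fun P => by
  rcases (m.nn.nn P).eq_or_lt with k | k
  · linarith [m.ke P k.symm]
  · exact (m.ko P k).le

theorem I2_c (h : 0 < dg m.A P) (hγ : Det m.A γ) : I2 (m.c P) γ = dg γ P := by
  rw [← I2_δ]
  exact I2_congr fun Q k => m.cδ P Q h (hγ.pos m.nn k)

theorem I2_k (hγ : Det m.A γ) : I2 m.k γ = I2 (cn L 2) γ :=
  I2_congr fun Q k => m.ko Q (hγ.pos m.nn k)

/-- the curves of the model on which `N` has degree zero -/
def T (N : BD L) : Set (Pl L) := {P | 0 < dg m.A P ∧ dg N P = 0}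

/-- a `(-1)`-curve -/
structure Neg (E : Pl L) : Prop where
  pos : 0 < dg m.A E
  sq : dg (m.c E) E = -1
  can : dg m.k E = -1

/-- a combination of curves -/
def cm (S : Finset (Pl L)) (h : Pl L → ℝ) : BD L := ∑ P ∈ S, h P • m.c P

/-- push forward along the contraction of `E`, then pull back -/
def push (E : Pl L) (γ : BD L) : BD L := γ + dg γ E • m.c E

variable (R : Rows L)
include R

theorem I2_c' (h : 0 < dg m.A P) (hγ : γ ∈ Car L) (hd : Det m.A γ) : I2 γ (m.c P) = dg γ P := by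
  rw [R.symm γ hγ _ (m.car h), m.I2_c h hd]

theorem I2_k' (hγ : γ ∈ Car L) (hd : Det m.A γ) : I2 γ m.k = I2 (cn L 2) γ := by
  rw [R.symm γ hγ _ m.kcar, m.I2_k hd]

theorem symm (hP : 0 < dg m.A P) (hQ : 0 < dg m.A Q) : dg (m.c P) Q = dg (m.c Q) P := by
  rw [← m.I2_c hQ (m.cd P hP), m.I2_c' R hP (m.car hQ) (m.cd Q hQ)]

theorem cn_c (hP : 0 < dg m.A P) : I2 (cn L 2) (m.c P) = dg m.k P := by
  rw [← m.I2_k (m.cd P hP), m.I2_c' R hP m.kcar m.kd]

theorem ne_nn (hP : 0 < dg m.A P) (h : Q ≠ P) : 0 ≤ dg (m.c P) Q := by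
  rcases (m.nn.nn Q).eq_or_lt with k | k
  · exact (m.cd P hP Q k.symm).ge
  · exact R.eff _ (m.car hP) (m.c0 P hP) Q (by rw [m.cδ P Q hP k, Pl.δ_ne h])

theorem sq_neg (hN : N ∈ Car L) (pos : 0 < I2 N N) (hd : Det m.A N) (hP : P ∈ m.T N) :
    dg (m.c P) P < 0 := by
  by_contra k
  have := R.hi0 hN (m.car hP.1) pos (by rw [m.I2_c' R hP.1 hN hd, hP.2])
    (by rw [m.I2_c hP.1 (m.cd P hP.1)]; exact not_lt.1 k) m.nn.car
  rw [m.I2_c hP.1 (.refl _)] at this
  exact hP.1.ne' this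

theorem tfin (hN : N ∈ Car L) (hb : Big N) : (m.T N).Finite := by
  obtain ⟨ε, hε, G, k⟩ := hb.exists_eff m.nn.car
  have hs := Submodule.smul_mem _ ε m.nn.car
  have hG := k.car (sub_mem hN hs)
  refine (m.fin G (R.isb G hG)).subset fun P h => ⟨h.1, fun e => ?_⟩
  have := R.eff G hG k.nonneg P e
  rw [R.congr (sub_mem hN hs) k.prn, R.sub hN hs, R.smul ε _ m.nn.car, h.2] at this
  linarith [mul_pos hε h.1]

section cm

variable {S : Finset (Pl L)} (h : Pl L → ℝ) (hS : ∀ P ∈ S, 0 < dg m.A P)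
include hS

theorem cm_car : m.cm S h ∈ Car L := sum_mem fun P k => Submodule.smul_mem _ _ (m.car (hS P k))

theorem dg_cm (Q : Pl L) : dg (m.cm S h) Q = ∑ P ∈ S, h P * dg (m.c P) Q := by
  rw [cm, R.sum S fun P k => Submodule.smul_mem _ _ (m.car (hS P k))]
  exact Finset.sum_congr rfl fun P k => R.smul _ _ (m.car (hS P k)) Q

theorem cm_det : Det m.A (m.cm S h) := fun Q e => by
  rw [m.dg_cm R h hS]
  exact Finset.sum_eq_zero fun P k => by rw [m.cd P (hS P k) Q e, mul_zero]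

theorem cm_of_not (hQ : 0 < dg m.A Q) (k : Q ∉ S) : m.cm S h Q = 0 := by
  rw [cm, Finset.sum_apply]
  exact Finset.sum_eq_zero fun P e => by
    rw [Pi.smul_apply, m.cδ P Q (hS P e) hQ, Pl.δ_ne (P := P) (Q := Q) fun e' => k (e' ▸ e),
      smul_zero]

theorem cm_of_mem (k : Q ∈ S) : m.cm S h Q = h Q := by
  rw [cm, Finset.sum_apply, Finset.sum_eq_single_of_mem Q k fun P e ne => by
    rw [Pi.smul_apply, m.cδ P Q (hS P e) (hS Q k), Pl.δ_ne ne.symm, smul_zero],
    Pi.smul_apply, m.c_self (hS Q k), smul_eq_mul, mul_one]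

theorem I2_cm (hγ : γ ∈ Car L) (hd : Det m.A γ) : I2 (m.cm S h) γ = ∑ P ∈ S, h P * dg γ P := by
  rw [cm, R.sum_l S (fun P k => Submodule.smul_mem _ _ (m.car (hS P k))) hγ]
  exact Finset.sum_congr rfl fun P k => by
    rw [R.smul_l _ (R.isb _ (m.car (hS P k))) hγ, m.I2_c (hS P k) hd]

end cm

section ctr

variable {m} (h : m.Neg E)
include h

theorem push_car (hγ : γ ∈ Car L) : m.push E γ ∈ Car L :=
  add_mem hγ (Submodule.smul_mem _ _ (m.car h.pos))

theorem push_carZ (hγ : γ ∈ CarZ L) : m.push E γ ∈ CarZ L := by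
  obtain ⟨z, hz⟩ := R.int γ hγ E
  rw [push, hz]
  exact add_mem hγ (CarZ.zsmul (m.cZ E h.pos) z)

theorem dg_push (hγ : γ ∈ Car L) (Q : Pl L) :
    dg (m.push E γ) Q = dg γ Q + dg γ E * dg (m.c E) Q := R.add_smul hγ (m.car h.pos) _ Q

theorem dg_push_self (hγ : γ ∈ Car L) : dg (m.push E γ) E = 0 := by
  rw [dg_push R h hγ, h.sq]
  ring

theorem push_nn (hγ : γ ∈ Car L) (k : ∀ Q, Q ≠ E → 0 ≤ dg γ Q) (e : 0 ≤ dg γ E) :
    Nn (m.push E γ) := ⟨push_car R h hγ, fun Q => by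
  by_cases ne : Q = E
  · rw [ne, dg_push_self R h hγ]
  · rw [dg_push R h hγ]
    exact add_nonneg (k Q ne) (mul_nonneg e (m.ne_nn R h.pos ne))⟩

theorem push_apply (γ : BD L) (hQ : 0 < dg m.A Q) (ne : Q ≠ E) : m.push E γ Q = γ Q := by
  rw [push, Pi.add_apply, Pi.smul_apply, m.cδ E Q h.pos hQ, Pl.δ_ne ne, smul_zero, add_zero]

theorem pos_iff : 0 < dg (m.push E m.A) Q ↔ 0 < dg m.A Q ∧ Q ≠ E := by
  refine ⟨fun k => ⟨m.nn.pos_of fun e => ?_, fun e => ?_⟩, fun k => ?_⟩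
  · rw [dg_push R h m.nn.car, e, m.cd E h.pos Q e] at k
    simp at k
  · rw [e, dg_push_self R h m.nn.car] at k
    exact lt_irrefl _ k
  · rw [dg_push R h m.nn.car]
    exact add_pos_of_pos_of_nonneg k.1 (mul_nonneg h.pos.le (m.ne_nn R h.pos k.2))

theorem zero_of (k : dg (m.push E m.A) Q = 0) : dg m.A Q = 0 ∨ Q = E := by
  by_contra e
  rw [not_or] at e
  exact ((pos_iff R h).2 ⟨m.nn.pos_of e.1, e.2⟩).ne' k

theorem det_push_of (hd : Det m.A γ) (e : dg γ E = 0) : Det (m.push E m.A) γ := fun Q k =>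
  (zero_of R h k).elim (hd Q) fun e' => e' ▸ e

theorem push_det (hγ : γ ∈ Car L) (hd : Det m.A γ) : Det m.A (m.push E γ) :=
  R.det_add hd (R.det_smul _ (m.cd E h.pos) (m.car h.pos)) hγ
    (Submodule.smul_mem _ _ (m.car h.pos))

theorem det_push (hγ : γ ∈ Car L) (hd : Det m.A γ) : Det (m.push E m.A) (m.push E γ) :=
  det_push_of R h (push_det R h hγ hd) (dg_push_self R h hγ)

theorem I2_push_l (hγ : γ ∈ Car L) (hβ : β ∈ Car L) (hd : Det m.A β) :
    I2 (m.push E γ) β = I2 γ β + dg γ E * dg β E := by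
  rw [push, R.add_l (R.isb γ hγ) (isB_smul _ (R.isb _ (m.car h.pos))) hβ,
    R.smul_l _ (R.isb _ (m.car h.pos)) hβ, m.I2_c h.pos hd]

theorem I2_push (hγ : γ ∈ Car L) (hβ : β ∈ Car L) (hd : Det m.A γ) (hd' : Det m.A β) :
    I2 (m.push E γ) (m.push E β) = I2 γ β + dg γ E * dg β E := by
  rw [I2_push_l R h hγ (push_car R h hβ) (push_det R h hβ hd'), dg_push_self R h hβ, mul_zero,
    add_zero, R.symm γ hγ _ (push_car R h hβ), I2_push_l R h hβ hγ hd, R.symm β hβ γ hγ, mul_comm]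

theorem cn_push (hγ : γ ∈ Car L) : I2 (cn L 2) (m.push E γ) = I2 (cn L 2) γ - dg γ E := by
  rw [push, R.add_r R.cnb hγ (Submodule.smul_mem _ _ (m.car h.pos)),
    R.smul_r _ R.cnb (m.car h.pos), m.cn_c R h.pos, h.can]
  ring

/-- the contraction of a `(-1)`-curve -/
def ctr : Nm L where
  A := m.push E m.A
  c P := m.push E (m.c P)
  k := m.push E m.k
  nn := push_nn R h m.nn.car (fun Q _ => m.nn.nn Q) h.pos.le
  pos := by
    rw [I2_push R h m.nn.car m.nn.car (.refl _) (.refl _)]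
    exact add_pos m.pos (mul_pos h.pos h.pos)
  fin Z hZ := (m.fin Z hZ).subset fun P k => ⟨((pos_iff R h).1 k.1).1, k.2⟩
  cZ P k := push_carZ R h (m.cZ P ((pos_iff R h).1 k).1)
  c0 P k :=
    have k' := (pos_iff R h).1 k
    add_nonneg (m.c0 P k'.1) (smul_nonneg (m.ne_nn R k'.1 k'.2.symm) (m.c0 E h.pos))
  cδ P Q k e := by
    have k' := (pos_iff R h).1 k
    have e' := (pos_iff R h).1 e
    rw [push_apply R h _ e'.1 e'.2, m.cδ P Q k'.1 e'.1]
  cd P k :=
    have k' := (pos_iff R h).1 k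
    det_push R h (m.car k'.1) (m.cd P k'.1)
  kZ := push_carZ R h m.kZ
  ko P k := by
    have k' := (pos_iff R h).1 k
    rw [push_apply R h _ k'.1 k'.2, m.ko P k'.1]
  ke P k := by
    rw [push, h.can, Pi.add_apply, Pi.smul_apply, smul_eq_mul]
    rcases zero_of R h k with e | rfl
    · have := m.c0 E h.pos P
      rw [Pi.zero_apply] at this
      linarith [m.ke P e]
    · rw [m.c_self h.pos, m.ko P h.pos]
      linarith
  kd := det_push R h m.kcar m.kd
  gen P k := by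
    have k' := (pos_iff R h).1 k
    obtain ⟨z, hz⟩ := R.int _ (m.cZ E h.pos) P
    rw [dg_push R h (m.car k'.1), dg_push R h m.kcar, h.can, m.symm R k'.1 h.pos, hz]
    have : (z : ℝ) ≤ z * z := by exact_mod_cast (by nlinarith [Int.le_self_sq z] : z ≤ z * z)
    linarith [m.gen P k'.1]

end ctr

/-- a curve with negative square and negative canonical degree is a rational `(-1)`-curve -/
theorem neg_of (hP : 0 < dg m.A P) (h1 : dg (m.c P) P < 0) (h2 : dg m.k P < 0) :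
    m.Neg P ∧ pg P.κ 1 = 0 := by
  obtain ⟨a, ha⟩ := R.int _ (m.cZ P hP) P
  obtain ⟨b, hb⟩ := R.int _ m.kZ P
  have g := m.gen P hP
  rw [ha] at h1
  rw [hb] at h2
  rw [ha, hb] at g
  have h1' : a < 0 := by exact_mod_cast h1
  have h2' : b < 0 := by exact_mod_cast h2
  have g' : 2 * (pg P.κ 1 : ℤ) - 2 ≤ a + b := by exact_mod_cast g
  have ea : a = -1 := by omega
  have eb : b = -1 := by omega
  exact ⟨⟨hP, by rw [ha, ea]; simp, by rw [hb, eb]; simp⟩, by omega⟩

omit m in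
/-- induction down to the minimal resolution over `N` -/
theorem ind (hN : N ∈ Car L) (pos : 0 < I2 N N) {p : Nm L → Prop}
    (base : ∀ m : Nm L, Det m.A N → (m.T N).Finite → (∀ P ∈ m.T N, 0 ≤ dg m.k P) → p m)
    (step : ∀ (m : Nm L) E (h : m.Neg E), Det m.A N → dg N E = 0 → p (ctr R h) → p m)
    (m : Nm L) (hd : Det m.A N) (hf : (m.T N).Finite) : p m := by
  induction hn : (m.T N).ncard using Nat.strong_induction_on generalizing m with
  | _ n ih =>
    by_cases k : ∀ P ∈ m.T N, 0 ≤ dg m.k P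
    · exact base m hd hf k
    · push Not at k
      obtain ⟨E, hE, e⟩ := k
      have h := (m.neg_of R hE.1 (m.sq_neg R hN pos hd hE) e).1
      have s : (ctr R h).T N ⊂ m.T N := ⟨fun P k => ⟨((pos_iff R h).1 k.1).1, k.2⟩,
        fun k => ((pos_iff R h).1 (k hE).1).2 rfl⟩
      exact step m E h hd hE.2 (ih _ (hn ▸ ncard_lt_ncard s hf) _ (det_push_of R h hd hE.2)
        (hf.subset s.1) rfl)

end Nm

end Vale.Agent.P287D.Sf
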