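import Vale.Agent.P287D.Su.Num
import Vale.Agent.P287D.Sh.Neg

/-!
# P287D: surfaces, factorisation of birational morphisms and multiplicities
-/

set_option linter.unusedVariables false
set_option linter.unusedSectionVars false

open Set

noncomputable section

namespace Vale.Agent.P287D.Sf

variable {L : Type} [Field L] [Algebra ℂ L] {Z β γ N D : BD L} {P Q E C u : Pl L} {μ : ℝ}

namespace Nm

/-- the discrepancies over the model -/
def dk (m : Nm L) : BD L := cn L 2 - m.k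

/-- twice the delta invariant of a curve -/
def dl (m : Nm L) (C : Pl L) : ℝ := dg (m.c C) C + dg m.k C + 2 - 2 * pg C.κ 1

/-- the coefficients and the multiplicities of `D` are at most `μ` -/
structure Mu (m : Nm L) (D : BD L) (μ : ℝ) : Prop where
  co : ∀ P, 0 < dg m.A P → D P ≤ μ
  off : ∀ u, dg m.A u = 0 → D u ≤ μ * m.dk u

variable (m : Nm L)

theorem dk_on (h : 0 < dg m.A P) : m.dk P = 0 := sub_eq_zero.2 (m.ko P h).symm

theorem one_le_dk (h : dg m.A P = 0) : 1 ≤ m.dk P := by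
  have := m.ke P h
  rw [dk, Pi.sub_apply]
  linarith

theorem dk_nonneg : 0 ≤ m.dk := sub_nonneg.2 m.k_le

theorem Mu.mono {m : Nm L} (h : m.Mu D μ) {μ' : ℝ} (k : μ ≤ μ') : m.Mu D μ' :=
  ⟨fun P e => (h.co P e).trans k,
    fun u e => (h.off u e).trans (mul_le_mul_of_nonneg_right k (m.dk_nonneg u))⟩

variable (R : Rows L)
include R

theorem tfin' (m₁ : Nm L) : (m₁.T m.A).Finite :=
  (m₁.fin m.dk (isB_sub R.cnb (R.isb _ m.kcar))).subset fun P k =>
    ⟨k.1, (zero_lt_one.trans_le (m.one_le_dk k.2)).ne'⟩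

/-- **factorisation**: a model over `m` contracts to `m` -/
theorem fac {p : Nm L → Prop}
    (base : ∀ m₁ : Nm L, Det m.A m₁.A → m₁.k = m.k → (∀ P, 0 < dg m.A P → m₁.c P = m.c P) → p m₁)
    (step : ∀ (m₁ : Nm L) E (n : m₁.Neg E), Det m₁.A m.A → dg m.A E = 0 → p (ctr R n) → p m₁)
    (m₁ : Nm L) (d : Det m₁.A m.A) : p m₁ :=
  ind R m.nn.car m.pos (fun m₁ d _ k =>
    have e := Su.base_det R m m₁ d k
    base m₁ e (Su.same R e d).1 (Su.same R e d).2) step m₁ d (m.tfin' R m₁)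

theorem ctr_k {m : Nm L} (n : m.Neg E) : (ctr R n).k = m.k - m.c E := by
  change m.push E m.k = _
  rw [push, n.can, neg_one_smul, sub_eq_add_neg]

theorem dk_ctr {m : Nm L} (n : m.Neg E) : (ctr R n).dk = m.dk + m.c E := by
  rw [dk, dk, ctr_k R n]
  abel

theorem le_of_dl {m₁ : Nm L} (n : m₁.Neg E) (d : Det m₁.A m.A) (e : dg m.A E = 0)
    (hC : 0 < dg m.A C) {b : ℕ} (hb : m.dl C < b * (b + 1)) : dg (m₁.c C) E ≤ b := by
  have l : 0 < dg m₁.A C := d.pos m₁.nn hC.ne'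
  have := Su.mono R m (ctr R n) (det_push_of R n d e) (m.tfin' R _) hC
  change dg (m₁.push E (m₁.c C)) C + dg (m₁.push E m₁.k) C ≤ _ at this
  obtain ⟨z, hz⟩ := R.int _ (m₁.cZ C l) E
  rw [dg_push R n (m₁.car l), dg_push R n m₁.kcar, n.can, ← m₁.symm R l n.pos, hz] at this
  have g := m₁.gen C l
  rw [dl] at hb
  have k : z * z - z < b * (b + 1) := by exact_mod_cast (by linarith : (z * z - z : ℝ) < b * (b + 1))
  rw [hz]
  exact_mod_cast (by nlinarith : z ≤ b)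

/-- **the multiplicities of a curve** are bounded by the delta invariant -/
theorem mult (hC : 0 < dg m.A C) {b : ℕ} (hb : m.dl C < b * (b + 1)) (hu : dg m.A u = 0) :
    m.c C u ≤ b * m.dk u := by
  obtain ⟨m₁, a, d, -⟩ := R.ex1 m.nn.car m.nn.car u
  have := m.fac R (p := fun m₁ => m.c C - m₁.c C ≤ (b : ℝ) • (m₁.k - m.k))
    (fun m₁ _ e e' => by simp [e, e' C hC]) (fun m₁ E n d e ih Q => by
      have i := ih Q
      have j := mul_le_mul_of_nonneg_right (m.le_of_dl R n d e hC hb) (m₁.c0 E n.pos Q)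
      rw [ctr_k R n] at i
      change m.c C Q - (m₁.c C Q + dg (m₁.c C) E * m₁.c E Q) ≤
        b * (m₁.k Q - m₁.c E Q - m.k Q) at i
      change m.c C Q - m₁.c C Q ≤ b * (m₁.k Q - m.k Q)
      linarith) m₁ d u
  change m.c C u - m₁.c C u ≤ b * (m₁.k u - m.k u) at this
  rwa [m₁.cδ C u (d.pos m₁.nn hC.ne') a, Pl.δ_ne (P := C) (Q := u) fun e => hC.ne' (e ▸ hu),
    sub_zero, m₁.ko u a] at this

theorem Neg.c_le {m : Nm L} (n : m.Neg E) (hu : dg m.A u = 0) : m.c E u ≤ m.dk u := by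
  have : (0 : ℝ) ≤ pg E.κ 1 := Nat.cast_nonneg _
  simpa using m.mult R n.pos (b := 1) (by rw [dl, n.sq, n.can]; push_cast; linarith) hu

/-- the log discrepancies at most double under a contraction -/
theorem Neg.dk_le {m : Nm L} (n : m.Neg E) (u : Pl L) : 1 + (ctr R n).dk u ≤ 2 * (1 + m.dk u) := by
  rw [dk_ctr R n, Pi.add_apply]
  rcases (m.nn.nn u).eq_or_lt with k | k
  · linarith [n.c_le R k.symm]
  · have : E.δ u ≤ 1 := by
      unfold Pl.δ
      split_ifs <;> simp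
    rw [m.cδ E u n.pos k, m.dk_on k]
    linarith

/-- the multiplicities at most double under a blow up -/
theorem Mu.step {m : Nm L} (n : m.Neg E) (h0 : 0 ≤ dg D E) (hμ : 0 ≤ μ)
    (h : (ctr R n).Mu (m.push E D) μ) : m.Mu D (2 * μ) := by
  have le : ∀ Q, D Q ≤ m.push E D Q := fun Q =>
    le_add_of_nonneg_right (mul_nonneg h0 (m.c0 E n.pos Q))
  refine ⟨fun P k => ?_, fun u k => ?_⟩
  · by_cases e : P = E
    · have := h.off E (dg_push_self R n m.nn.car)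
      rw [dk_ctr R n, Pi.add_apply, m.dk_on n.pos, m.c_self n.pos] at this
      rw [e]
      linarith [le E]
    · linarith [le P, h.co P ((pos_iff R n).2 ⟨k, e⟩)]
  · have := h.off u (push_det R n m.nn.car (.refl _) u k)
    rw [dk_ctr R n, Pi.add_apply] at this
    nlinarith [le u, n.c_le R k]

theorem push_sub {m : Nm L} (hβ : β ∈ Car L) (hγ : γ ∈ Car L) (t : ℝ) :
    m.push E (β - t • γ) = m.push E β - t • m.push E γ := by
  rw [push, push, push, R.sub hβ (Submodule.smul_mem _ t hγ), R.smul t γ hγ]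
  module

/-- **the multiplicities of an effective divisor** from curves through the points -/
theorem mu (hD : D ∈ Car L) (dD : Det m.A D) (h0 : 0 ≤ D)
    (H : ∀ u, dg m.A u = 0 → ∃ (C : Pl L) (b : ℕ), 0 < dg m.A C ∧ 0 < m.c C u ∧
      m.dl C < b * (b + 1) ∧ b * D C + dg (D - D C • m.c C) C ≤ μ) (hu : dg m.A u = 0) :
    D u ≤ μ * m.dk u := by
  classical
  obtain ⟨m₁, a, d, -⟩ := R.ex1 m.nn.car m.nn.car u
  have key := m.fac R (p := fun m₁ => ∀ D₁ ∈ Car L, Det m₁.A D₁ →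
      (∀ P, 0 < dg m.A P → D₁ P = D P) → (∀ P ∈ m₁.T m.A, D₁ P = 0) →
      (∀ G ∈ m₁.T m.A, dg D₁ G ≤ μ) ∧ D - D₁ ≤ μ • (m₁.k - m.k) ∧
        ∀ C, 0 < dg m.A C → dg (D₁ - D C • m₁.c C) C ≤ dg (D - D C • m.c C) C)
    (fun m₁ e e1 e2 D₁ c1 c2 c3 _ => ?_) (fun m₁ E n d e ih D₁ c1 c2 c3 c4 => ?_) m₁ d
  · obtain ⟨D₁, c1, c2, c3, -⟩ := m₁.trace R (Z := fun P => if 0 < dg m.A P then D P else 0)
      (isB_of (R.isb D hD) fun P k e => k (by simp [e]))
    have z : ∀ P ∈ m₁.T m.A, D₁ P = 0 := fun P k => by rw [c3 P k.1, if_neg k.2.not_gt]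
    have := (key D₁ c1 c2 (fun P k => by rw [c3 P (d.pos m₁.nn k.ne'), if_pos k]) z).2.1 u
    change D u - D₁ u ≤ μ * (m₁.k u - m.k u) at this
    rwa [z u ⟨a, hu⟩, sub_zero, m₁.ko u a] at this
  · obtain rfl := R.mum_unique m.nn m.pos c1 hD (e.trans c2) dD c3
    exact ⟨fun G k => absurd (e G k.2) k.1.ne', by simp [e1], fun C k => by rw [e2 C k]⟩
  have U : ∀ {P}, 0 < dg m.A P → 0 < dg m₁.A P := fun k => d.pos m₁.nn k.ne'
  have ne : ∀ {P}, 0 < dg m.A P → P ≠ E := fun k s => k.ne' (s ▸ e)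
  have p1 : ∀ P, 0 < dg m₁.A P → 0 ≤ D₁ P := fun P k => by
    rcases (m.nn.nn P).eq_or_lt with l | l
    · exact (c4 P ⟨k, l.symm⟩).ge
    · exact c3 P l ▸ h0 P
  have p2 : ∀ G ∈ m₁.T m.A, 0 ≤ dg D₁ G := fun G k =>
    R.eff _ c1 (Sh.nonneg_of R m₁ c1 c2 p1) G (c4 G k)
  have p3 := p2 E ⟨n.pos, e⟩
  obtain ⟨i1, i2, i3⟩ := ih _ (push_car R n c1) (det_push R n c1 c2)
    (fun P k => by rw [push_apply R n _ (U k) (ne k), c3 P k])
    (fun P k => by
      have k' := (pos_iff R n).1 k.1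
      rw [push_apply R n _ k'.1 k'.2, c4 P ⟨k'.1, k.2⟩])
  have x : ∀ C, 0 < dg m.A C → 0 ≤ dg (D₁ - D C • m₁.c C) E ∧ 0 ≤ dg (D₁ - D C • m₁.c C) C ∧
      dg (D₁ - D C • m₁.c C) C + dg (D₁ - D C • m₁.c C) E * dg (m₁.c E) C ≤
        dg (D - D C • m.c C) C := fun C k => by
    have s := Submodule.smul_mem _ (D C) (m₁.car (U k))
    have nn : 0 ≤ D₁ - D C • m₁.c C := Sh.nonneg_of R m₁ (sub_mem c1 s)
      (R.det_sub c2 (R.det_smul _ (m₁.cd C (U k)) (m₁.car (U k))) c1 s) fun P l => by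
        rw [Pi.sub_apply, Pi.smul_apply, m₁.cδ C P (U k) l]
        by_cases t : P = C
        · simp [t, Pl.δ_self, c3 C k]
        · simpa [Pl.δ_ne t] using p1 P l
    refine ⟨R.eff _ (sub_mem c1 s) nn E ?_, R.eff _ (sub_mem c1 s) nn C ?_, ?_⟩
    · rw [Pi.sub_apply, Pi.smul_apply, m₁.cδ C E (U k) n.pos, Pl.δ_ne (ne k).symm,
        c4 E ⟨n.pos, e⟩, smul_zero, sub_zero]
    · simp [m₁.c_self (U k), c3 C k]
    · rw [← dg_push R n (sub_mem c1 s), push_sub R c1 (m₁.car (U k))]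
      exact i3 C k
  have y : ∀ G ∈ m₁.T m.A, G ≠ E → dg D₁ G + dg D₁ E * dg (m₁.c E) G ≤ μ := fun G k l =>
    dg_push R n c1 G ▸ i1 G ⟨(pos_iff R n).2 ⟨k.1, l⟩, k.2⟩
  have one : ∀ G, 0 < dg (m₁.c E) G → 1 ≤ dg (m₁.c E) G := fun G k => by
    obtain ⟨z, hz⟩ := R.int _ (m₁.cZ E n.pos) G
    rw [hz] at k ⊢
    exact_mod_cast (by exact_mod_cast k : 0 < z)
  have ν : dg D₁ E ≤ μ := by
    by_cases t : ∃ G ∈ m₁.T m.A, G ≠ E ∧ 0 < dg (m₁.c E) G
    · obtain ⟨G, g1, g2, g3⟩ := t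
      nlinarith [y G g1 g2, p2 G g1, one G g3]
    obtain ⟨C, b, h1, h2, h3, h4⟩ := H E e
    obtain ⟨x1, x2, x3⟩ := x C h1
    have w := m₁.I2_c' R n.pos (m.car h1) (d.trans (m.cd C h1))
    rw [m.cd C h1 E e, I2_congr (Z' := C.δ + m.c C E • E.δ) fun Q l => ?_,
      R.add_l (isB_δ C) (isB_smul _ (isB_δ E)) (m₁.car n.pos),
      R.smul_l _ (isB_δ E) (m₁.car n.pos), I2_δ, I2_δ, n.sq] at w
    · have b1 := m.le_of_dl R n d e h1 h3
      have b2 := one C (by linarith)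
      have b3 := R.sub c1 (Submodule.smul_mem _ (D C) (m₁.car (U h1))) E
      rw [R.smul _ _ (m₁.car (U h1))] at b3
      nlinarith [mul_le_mul_of_nonneg_left b1 (h0 C)]
    · rw [Pi.add_apply, Pi.smul_apply, smul_eq_mul]
      by_cases s : Q = E
      · rw [s, Pl.δ_self, Pl.δ_ne (ne h1).symm, zero_add, mul_one]
      rw [Pl.δ_ne s, mul_zero, add_zero]
      exact m.cδ C Q h1 (m.nn.pos_of fun r => t ⟨Q, ⟨(m₁.cd E n.pos).pos m₁.nn l, r⟩, s,
        (m₁.ne_nn R n.pos s).lt_of_ne' l⟩)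
  refine ⟨fun G k => ?_, fun Q => ?_, fun C k => ?_⟩
  · by_cases l : G = E
    · rwa [l]
    · linarith [y G k l, mul_nonneg p3 (m₁.ne_nn R n.pos l)]
  · have i := i2 Q
    rw [ctr_k R n] at i
    change D Q - (D₁ Q + dg D₁ E * m₁.c E Q) ≤ μ * (m₁.k Q - m₁.c E Q - m.k Q) at i
    change D Q - D₁ Q ≤ μ * (m₁.k Q - m.k Q)
    linarith [mul_le_mul_of_nonneg_right ν (m₁.c0 E n.pos Q)]
  · obtain ⟨x1, x2, x3⟩ := x C k
    linarith [mul_nonneg x1 (m₁.ne_nn R n.pos (ne k))]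

end Nm

end Vale.Agent.P287D.Sf
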