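import Vale.Agent.P287D.Sf.Kl

/-!
# P287D: surfaces of type S, the bounds for the degree with a boundary
-/

set_option linter.unusedVariables false
set_option linter.unusedSectionVars false

open Set

noncomputable section

namespace Vale.Agent.P287D.Sf

variable {L : Type} [Field L] [Algebra ℂ L] {Z θ γ N T a C H : BD L} {f : L} {n x : ℝ}

/-- `n N - K - θ` is pseudo-effective modulo the `N`-trivial curves, `θ ≥ 0`, and `N` is integral
except on curves where `θ ≥ 1 / 3` -/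
structure KL (n : ℝ) (N θ : BD L) : Prop where
  nn : Nn N
  big : Big N
  isb : IsB 1 θ
  ge : ∀ P, 0 < dg N P → 0 ≤ θ P
  adj : ∀ γ, Nn γ → Det N γ → 0 ≤ I2 (n • N - cn L 2 - θ) γ
  int : ∃ Z, Z - N ∈ Prn L ∧ ∀ P, 0 < dg N P → (∃ z : ℤ, Z P = z) ∨ 1 / 3 ≤ θ P

variable (R : Rows L)
include R

/-- the effective form: `θ ∼ n N - K` -/
theorem Rows.kl_of (hN : Nn N) (hb : Big N) (e : θ - (n • N - cn L 2) ∈ Prn L)
    (ge : ∀ P, 0 < dg N P → 0 ≤ θ P) (e' : Z - N ∈ Prn L)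
    (i : ∀ P, 0 < dg N P → (∃ z : ℤ, Z P = z) ∨ 1 / 3 ≤ θ P) : KL n N θ :=
  have b := isB_sub (isB_smul n (R.isb N hN.car)) R.cnb
  ⟨hN, hb, R.isB_congr b e, ge, fun γ hγ _ =>
    (R.prn_l (by simpa using neg_mem e) hγ.car).ge, Z, e', i⟩

theorem KL.le (k : KL n N θ) (hγ : Nn γ) (d : Det N γ) :
    I2 (cn L 2) γ + I2 θ γ ≤ n * I2 N γ := by
  have i := R.isb N k.nn.car
  have := k.adj γ hγ d
  rw [R.sub_l (isB_sub (isB_smul n i) R.cnb) k.isb hγ.car, R.sub_l (isB_smul n i) R.cnb hγ.car,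
    R.smul_l n i hγ.car] at this
  linarith

theorem KL.toAdj (k : KL n N θ) : Adj n N := fun γ hγ d => by
  linarith [k.le R hγ d, hγ.I2_nonneg (Z := θ) fun P e => k.ge P (d.pos k.nn e.ne')]

namespace PS

variable (h : PS H f)
include h

theorem lamT (k : KL n N θ) (h1 : 1 ≤ 3 * n) : I2 H H ≤ 3 * (n * I2 N H) := by
  by_cases t : ∃ D, 0 < dg H D ∧ dg N D = 0
  · obtain ⟨D, a, b⟩ := t
    exact h.lam_triv R k.nn k.big (k.toAdj R) a b
  have d : Det N H := fun P e => (h.nn R).zero_of fun l => t ⟨P, l, e⟩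
  by_cases u : ∃ D, 0 < dg H D ∧ 1 / 3 ≤ θ D
  · obtain ⟨D, a, b⟩ := u
    have e1 := k.le R (h.nn R) d
    have e2 := R.le_I2 k.isb h.smp.car (fun P => by
      rcases ((h.nn R).nn P).eq_or_lt with l | l
      · rw [← l, mul_zero]
      · exact mul_nonneg (k.ge P (d.pos k.nn l.ne')) l.le) D
    nlinarith [h.le_dg R a, h.cn_nn R (h.nn R)]
  · obtain ⟨Z, a, b⟩ := k.int
    have p := h.big_pos R k.nn k.big
    have := h.le_of_int R k.nn.car a
      (fun P e => (b P (d.pos k.nn e.ne')).resolve_right fun l => u ⟨P, e, l⟩) p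
    nlinarith

/-- **KL (a)** from the coefficient of `H` -/
theorem kla' (hN : Nn N) (ha : Adj n N) {c : ℝ} (hl : I2 H H ≤ c * I2 N H) :
    I2 H H ≤ c ^ 2 * (I2 N N + (n * I2 N N) ^ 2) :=
  (h.le_of_lam R hN hl).trans (mul_le_mul_of_nonneg_left (add_le_add le_rfl
    (pow_le_pow_left₀ (h.cn_nn R hN) (ha N hN (.refl N)) 2)) (sq_nonneg c))

/-- **KL (a)** with a boundary -/
theorem klaT (k : KL n N θ) (h1 : 1 ≤ 3 * n) :
    I2 H H ≤ 9 * n ^ 2 * (I2 N N + (n * I2 N N) ^ 2) := by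
  have := h.kla' R k.nn (k.toAdj R) (c := 3 * n) (mul_assoc 3 n _ ▸ h.lamT R k h1)
  linarith

/-- **KL (b)** with a boundary -/
theorem klbT (k : KL n N θ) (h1 : 1 ≤ 3 * n) (hC : Nn C) (e : Z - C ∈ Prn L)
    (i : ∀ P, 0 < dg H P → ∃ z : ℤ, Z P = z) (hc : a ∈ Car L) (ne : I2 C a ≠ 0)
    (hx : I2 N C ≤ x) : I2 H H ≤ (n * x) ^ 2 + 6 * (n * x) := by
  have n0 : 0 ≤ n := by linarith
  have x0 : 0 ≤ x := (R.eff_nn k.big.eff (R.isb N k.nn.car) hC).trans hx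
  have := h.klb' R k.nn k.big (k.toAdj R) n0 (c := 3 * n) (c' := 1)
    (mul_assoc 3 n _ ▸ h.lamT R k h1) hC
    (by simpa using h.le_of_int R hC.car e i (h.pos_of R hC hc ne)) hx
  have := le_sq h.pos.le (mul_nonneg n0 x0) (z := 3 * n * x) (by positivity) (by linarith)
  linarith

end PS

end Vale.Agent.P287D.Sf
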